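import Vale.Agent.P205.Klein.Pins

/-!
Both closed surfaces of Euler characteristic zero.
-/

namespace Vale.Agent.P205

/-- Every smooth metric of the torus and of the Klein bottle immerses in four-space. -/
def EulerZeroImmerses : Prop :=
  Torus.EveryTorusImmerses ∧ Klein.EveryKleinBottleImmerses

end Vale.Agent.P205
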