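import Vale.Agent.P205.IsothermalDefs

/-!
Fourier series of smooth doubly periodic functions on the plane: rapidly decreasing coefficient
families, termwise differentiation, inversion and Parseval's identity.
-/

namespace Vale.Agent.P205.Fou

open scoped ContDiff Real
open MeasureTheory Set Filter Complex

noncomputable section

/-- The weight of a frequency. -/
def wt (k : ℤ × ℤ) : ℝ := (1 + |(k.1 : ℝ)|) * (1 + |(k.2 : ℝ)|)

/-- Rapid decrease. -/
def RD (a : ℤ × ℤ → ℂ) : Prop := ∀ n : ℕ, Summable fun k => wt k ^ n * ‖a k‖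

/-- Smooth periodic functions. -/
def SP (f : ℝ × ℝ → ℂ) : Prop := ContDiff ℝ ∞ f ∧ Per2 f

/-- Multiplier of the first coordinate derivative. -/
def mX (k : ℤ × ℤ) : ℂ := (2 * π * (k.1 : ℝ) : ℝ) * I

/-- Multiplier of the second coordinate derivative. -/
def mY (k : ℤ × ℤ) : ℂ := (2 * π * (k.2 : ℝ) : ℝ) * I

/-- The phase of a frequency. -/
def ph (k : ℤ × ℤ) : ℝ × ℝ →L[ℝ] ℂ :=
  (ContinuousLinearMap.fst ℝ ℝ ℝ).smulRight (mX k) +
    (ContinuousLinearMap.snd ℝ ℝ ℝ).smulRight (mY k)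

/-- The character of a frequency. -/
def ch (k : ℤ × ℤ) (p : ℝ × ℝ) : ℂ := exp (ph k p)

/-- The sum of a Fourier series. -/
def ser (a : ℤ × ℤ → ℂ) (p : ℝ × ℝ) : ℂ := ∑' k, a k * ch k p

/-- The derivative along a vector. -/
def dv (v : ℝ × ℝ) (f : ℝ × ℝ → ℂ) (p : ℝ × ℝ) : ℂ := fderiv ℝ f p v

/-- The unit square. -/
def box : Set (ℝ × ℝ) := Ioc (0 : ℝ) 1 ×ˢ Ioc (0 : ℝ) 1

/-- The Fourier coefficient. -/
def cf (f : ℝ × ℝ → ℂ) (k : ℤ × ℤ) : ℂ := ∫ p in box, ch (-k) p * f p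

theorem ph_apply (k : ℤ × ℤ) (p : ℝ × ℝ) :
    ph k p = (p.1 : ℂ) * mX k + (p.2 : ℂ) * mY k := by
  simp [ph, Complex.real_smul]

theorem ph_add (k l : ℤ × ℤ) (p : ℝ × ℝ) : ph (k + l) p = ph k p + ph l p := by
  simp only [ph_apply, mX, mY, Prod.fst_add, Prod.snd_add]; push_cast; ring

theorem ch_add (k l : ℤ × ℤ) (p : ℝ × ℝ) : ch (k + l) p = ch k p * ch l p := by
  rw [ch, ch, ch, ph_add, exp_add]

theorem ch_zero (p : ℝ × ℝ) : ch 0 p = 1 := by simp [ch, ph_apply, mX, mY]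

theorem norm_ch (k : ℤ × ℤ) (p : ℝ × ℝ) : ‖ch k p‖ = 1 := by
  rw [ch, norm_exp, ph_apply]; simp [mX, mY]

theorem per_ch (k : ℤ × ℤ) : Per2 (ch k) := by
  intro p
  constructor
  · rw [ch, ch, exp_eq_exp_iff_exists_int]
    exact ⟨k.1, by simp only [ph_apply, mX, mY]; push_cast; ring⟩
  · rw [ch, ch, exp_eq_exp_iff_exists_int]
    exact ⟨k.2, by simp only [ph_apply, mX, mY]; push_cast; ring⟩

theorem hasFDerivAt_ch (k : ℤ × ℤ) (p : ℝ × ℝ) :
    HasFDerivAt (ch k) (ch k p • ph k) p :=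
  (ph k).hasFDerivAt.cexp

theorem contDiff_ch (k : ℤ × ℤ) : ContDiff ℝ ∞ (ch k) := (ph k).contDiff.cexp

theorem sp_ch (k : ℤ × ℤ) : SP (ch k) := ⟨contDiff_ch k, per_ch k⟩

theorem dv_ch (k : ℤ × ℤ) (v p : ℝ × ℝ) : dv v (ch k) p = ph k v * ch k p := by
  rw [dv, (hasFDerivAt_ch k p).fderiv]
  simp [mul_comm]

theorem one_le_wt (k : ℤ × ℤ) : 1 ≤ wt k := by
  have h1 : (0:ℝ) ≤ |(k.1 : ℝ)| := abs_nonneg _
  have h2 : (0:ℝ) ≤ |(k.2 : ℝ)| := abs_nonneg _
  unfold wt; nlinarith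

theorem wt_nonneg (k : ℤ × ℤ) : 0 ≤ wt k := zero_le_one.trans (one_le_wt k)

theorem norm_ph_le (k : ℤ × ℤ) : ‖ph k‖ ≤ 2 * π * wt k := by
  refine ContinuousLinearMap.opNorm_le_bound _ (by have := wt_nonneg k; positivity) fun v => ?_
  rw [ph_apply]
  have h1 : |v.1| ≤ ‖v‖ := norm_fst_le v
  have h2 : |v.2| ≤ ‖v‖ := norm_snd_le v
  have ha : (0:ℝ) ≤ |(k.1 : ℝ)| := abs_nonneg _
  have hb : (0:ℝ) ≤ |(k.2 : ℝ)| := abs_nonneg _
  refine (norm_add_le _ _).trans ?_
  simp only [norm_mul, mX, mY, norm_real, norm_I, mul_one, Real.norm_eq_abs, abs_mul, abs_two,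
    abs_of_pos Real.pi_pos]
  calc |v.1| * (2 * π * |(k.1 : ℝ)|) + |v.2| * (2 * π * |(k.2 : ℝ)|)
      ≤ ‖v‖ * (2 * π * |(k.1 : ℝ)|) + ‖v‖ * (2 * π * |(k.2 : ℝ)|) := by
        gcongr
    _ = 2 * π * (|(k.1 : ℝ)| + |(k.2 : ℝ)|) * ‖v‖ := by ring
    _ ≤ 2 * π * wt k * ‖v‖ := by
        gcongr
        unfold wt; nlinarith

/-! ### Series -/

theorem RD.summable {a : ℤ × ℤ → ℂ} (ha : RD a) : Summable fun k => ‖a k‖ := by
  simpa using ha 0

theorem RD.of_le {a b : ℤ × ℤ → ℂ} (ha : RD a) {C : ℝ} {m : ℕ}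
    (h : ∀ k, ‖b k‖ ≤ C * wt k ^ m * ‖a k‖) : RD b := fun n => by
  refine Summable.of_nonneg_of_le (fun k => ?_) (fun k => ?_) ((ha (n + m)).mul_left C)
  · have := wt_nonneg k; positivity
  · calc wt k ^ n * ‖b k‖ ≤ wt k ^ n * (C * wt k ^ m * ‖a k‖) :=
          mul_le_mul_of_nonneg_left (h k) (pow_nonneg (wt_nonneg k) n)
      _ = C * (wt k ^ (n + m) * ‖a k‖) := by rw [pow_add]; ring

theorem RD.phase {a : ℤ × ℤ → ℂ} (ha : RD a) (v : ℝ × ℝ) : RD fun k => ph k v * a k := by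
  refine ha.of_le (C := 2 * π * ‖v‖) (m := 1) fun k => ?_
  calc ‖ph k v * a k‖ ≤ ‖ph k‖ * ‖v‖ * ‖a k‖ := by
        rw [norm_mul]; gcongr; exact (ph k).le_opNorm v
    _ ≤ 2 * π * wt k * ‖v‖ * ‖a k‖ := by gcongr; exact norm_ph_le k
    _ = 2 * π * ‖v‖ * wt k ^ 1 * ‖a k‖ := by ring

theorem RD.summable_ser {a : ℤ × ℤ → ℂ} (ha : RD a) (p : ℝ × ℝ) :
    Summable fun k => a k * ch k p :=
  Summable.of_norm_bounded ha.summable fun k => by simp [norm_ch]

theorem per_ser (a : ℤ × ℤ → ℂ) : Per2 (ser a) := fun p => by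
  simp only [ser, (per_ch _ p).1, (per_ch _ p).2, and_self]

theorem hasFDerivAt_ser {a : ℤ × ℤ → ℂ} (ha : RD a) (p : ℝ × ℝ) :
    HasFDerivAt (ser a) (∑' k, a k • (ch k p • ph k)) p := by
  refine hasFDerivAt_tsum (u := fun k => 2 * π * (wt k ^ 1 * ‖a k‖)) ((ha 1).mul_left _)
    (f' := fun k x => a k • (ch k x • ph k))
    (fun k x => (hasFDerivAt_ch k x).const_mul (a k)) (fun k x => ?_)
    (ha.summable_ser (0, 0)) p
  rw [norm_smul, norm_smul, norm_ch, one_mul, pow_one, ← mul_assoc, mul_comm _ ‖a k‖]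
  exact mul_le_mul_of_nonneg_left (norm_ph_le k) (norm_nonneg _)

theorem dv_ser {a : ℤ × ℤ → ℂ} (ha : RD a) (v : ℝ × ℝ) :
    dv v (ser a) = ser fun k => ph k v * a k := by
  funext p
  rw [dv, (hasFDerivAt_ser ha p).fderiv]
  have hs : Summable fun k => a k • (ch k p • ph k) := by
    refine Summable.of_norm_bounded ((ha 1).mul_left (2 * π)) fun k => ?_
    rw [norm_smul, norm_smul, norm_ch, one_mul, pow_one, ← mul_assoc, mul_comm _ ‖a k‖]
    exact mul_le_mul_of_nonneg_left (norm_ph_le k) (norm_nonneg _)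
  have e := ((ContinuousLinearMap.apply ℝ ℂ v).hasSum hs.hasSum).tsum_eq
  simp only [ContinuousLinearMap.apply_apply] at e
  rw [← e, ser]
  exact tsum_congr fun k => by simp; ring

theorem sp_ser {a : ℤ × ℤ → ℂ} (ha : RD a) : SP (ser a) := by
  refine ⟨contDiff_infty.2 fun n => ?_, per_ser a⟩
  induction n generalizing a with
  | zero =>
    exact contDiff_zero.2 (continuous_iff_continuousAt.2 fun p => (hasFDerivAt_ser ha p).continuousAt)
  | succ n ih =>
    push_cast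
    rw [contDiff_succ_iff_fderiv_apply]
    refine ⟨fun p => (hasFDerivAt_ser ha p).differentiableAt, by simp, fun v => ?_⟩
    have := ih (ha.phase v)
    rw [← dv_ser ha v] at this
    exact this

/-! ### Integrals -/

theorem SP.continuous {f : ℝ × ℝ → ℂ} (hf : SP f) : Continuous f := hf.1.continuous

theorem integrableOn_box {E : Type*} [NormedAddCommGroup E] {f : ℝ × ℝ → E} (hf : Continuous f) :
    IntegrableOn f box :=
  (hf.continuousOn.integrableOn_compact ((isCompact_Icc).prod isCompact_Icc)).mono_set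
    (prod_mono Ioc_subset_Icc_self Ioc_subset_Icc_self)

theorem SP.dv {f : ℝ × ℝ → ℂ} (hf : SP f) (v : ℝ × ℝ) : SP (dv v f) := by
  refine ⟨(hf.1.fderiv_right (m := ∞) le_rfl).clm_apply contDiff_const, fun p => ?_⟩
  constructor
  · have e : (fun x : ℝ × ℝ => f (x + (1, 0))) = f := funext fun x => by
      rw [show x + ((1 : ℝ), (0 : ℝ)) = (x.1 + 1, x.2) by ext <;> simp]; exact (hf.2 x).1
    have := fderiv_comp_add_right (f := f) (x := p) (𝕜 := ℝ) ((1 : ℝ), (0 : ℝ))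
    rw [e] at this
    simp only [Fou.dv]
    rw [this, show p + ((1 : ℝ), (0 : ℝ)) = (p.1 + 1, p.2) by ext <;> simp]
  · have e : (fun x : ℝ × ℝ => f (x + (0, 1))) = f := funext fun x => by
      rw [show x + ((0 : ℝ), (1 : ℝ)) = (x.1, x.2 + 1) by ext <;> simp]; exact (hf.2 x).2
    have := fderiv_comp_add_right (f := f) (x := p) (𝕜 := ℝ) ((0 : ℝ), (1 : ℝ))
    rw [e] at this
    simp only [Fou.dv]
    rw [this, show p + ((0 : ℝ), (1 : ℝ)) = (p.1, p.2 + 1) by ext <;> simp]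

theorem SP.mul {f g : ℝ × ℝ → ℂ} (hf : SP f) (hg : SP g) : SP fun p => f p * g p :=
  ⟨hf.1.mul hg.1, fun p => by simp [(hf.2 p).1, (hf.2 p).2, (hg.2 p).1, (hg.2 p).2]⟩

theorem dv_mul {f g : ℝ × ℝ → ℂ} (hf : SP f) (hg : SP g) (v p : ℝ × ℝ) :
    dv v (fun q => f q * g q) p = f p * dv v g p + g p * dv v f p := by
  have h := ((hf.1.differentiable (by simp) p).hasFDerivAt).mul
    ((hg.1.differentiable (by simp) p).hasFDerivAt)
  simp only [dv]
  rw [HasFDerivAt.fderiv (f := fun q => f q * g q) h]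
  simp

/-- The integral of a derivative vanishes. -/
theorem integral_dv_snd {f : ℝ × ℝ → ℂ} (hf : SP f) : ∫ p in box, dv (0, 1) f p = 0 := by
  rw [box, Measure.volume_eq_prod, setIntegral_prod _ (integrableOn_box (hf.dv _).continuous)]
  refine integral_eq_zero_of_ae (Eventually.of_forall fun x => ?_)
  have hd : ∀ y ∈ uIcc (0:ℝ) 1,
      HasDerivAt (fun t => f (x, t)) (dv (0, 1) f (x, y)) y := fun y _ => by
    have h := (hf.1.differentiable (by simp) (x, y)).hasFDerivAt.comp_hasDerivAt y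
      ((hasDerivAt_const y x).prodMk (hasDerivAt_id y))
    exact h
  simp only [Pi.zero_apply]
  rw [← intervalIntegral.integral_of_le zero_le_one,
    intervalIntegral.integral_eq_sub_of_hasDerivAt hd
      (((hf.dv _).continuous.comp (continuous_const.prodMk continuous_id)).intervalIntegrable _ _)]
  have := (hf.2 (x, 0)).2
  simp only [zero_add] at this
  rw [this, sub_self]

theorem integral_dv_fst {f : ℝ × ℝ → ℂ} (hf : SP f) : ∫ p in box, dv (1, 0) f p = 0 := by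
  have hg : SP fun p : ℝ × ℝ => f p.swap :=
    ⟨hf.1.comp (contDiff_snd.prodMk contDiff_fst),
      fun p => ⟨(hf.2 p.swap).2, (hf.2 p.swap).1⟩⟩
  have h := integral_dv_snd hg
  have e : ∀ p : ℝ × ℝ, dv (0, 1) (fun q : ℝ × ℝ => f q.swap) p = dv (1, 0) f p.swap := fun p => by
    have h := (hf.1.differentiable (by simp) p.swap).hasFDerivAt.comp p
      ((ContinuousLinearMap.snd ℝ ℝ ℝ).prod (ContinuousLinearMap.fst ℝ ℝ ℝ)).hasFDerivAt
    simp only [dv]
    rw [HasFDerivAt.fderiv (f := fun q : ℝ × ℝ => f q.swap) h]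
    simp
  simp only [e, box, Measure.volume_eq_prod] at h ⊢
  rwa [setIntegral_prod_swap] at h

theorem mX_eq (k : ℤ × ℤ) : ph k (1, 0) = mX k := by simp [ph_apply]

theorem mY_eq (k : ℤ × ℤ) : ph k (0, 1) = mY k := by simp [ph_apply]

theorem volume_box : (volume : Measure (ℝ × ℝ)).real box = 1 := by
  rw [box, Measure.volume_eq_prod, measureReal_prod_prod]; simp

theorem integral_ch (k : ℤ × ℤ) : ∫ p in box, ch k p = if k = 0 then 1 else 0 := by
  split_ifs with h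
  · subst h; simp [ch_zero, volume_box]
  · have h1 := integral_dv_fst (sp_ch k)
    have h2 := integral_dv_snd (sp_ch k)
    simp only [dv_ch, mX_eq, mY_eq, integral_const_mul, mul_eq_zero] at h1 h2
    by_contra hne
    have e1 : mX k = 0 := h1.resolve_right hne
    have e2 : mY k = 0 := h2.resolve_right hne
    simp [mX, mY, Real.pi_ne_zero] at e1 e2
    exact h (Prod.ext e1 e2)

theorem cf_ser {a : ℤ × ℤ → ℂ} (ha : RD a) (k : ℤ × ℤ) : cf (ser a) k = a k := by
  have hc : ∀ l, Continuous fun p => ch (-k) p * (a l * ch l p) := fun l =>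
    (contDiff_ch _).continuous.mul (continuous_const.mul (contDiff_ch _).continuous)
  have e : ∫ p in box, ∑' l, ch (-k) p * (a l * ch l p) =
      ∑' l, ∫ p in box, ch (-k) p * (a l * ch l p) :=
    (integral_tsum_of_summable_integral_norm (fun l => integrableOn_box (hc l))
      (by simpa [norm_ch, volume_box] using ha.summable)).symm
  simp only [cf, ser, ← tsum_mul_left]
  rw [e, tsum_eq_single k]
  · simp [mul_left_comm, ← ch_add, ch_zero, volume_box]
  · intro l hl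
    simp_rw [mul_left_comm _ (a l), ← ch_add]
    rw [integral_const_mul, integral_ch, if_neg (fun h => hl (by
      rwa [neg_add_eq_sub, sub_eq_zero] at h)), mul_zero]

theorem cf_dv {f : ℝ × ℝ → ℂ} (hf : SP f) (k : ℤ × ℤ) :
    cf (dv (1, 0) f) k = mX k * cf f k ∧ cf (dv (0, 1) f) k = mY k * cf f k := by
  have hp : SP fun p => ch (-k) p * f p := (sp_ch _).mul hf
  have key : ∀ v : ℝ × ℝ, (∫ p in box, dv v (fun q => ch (-k) q * f q) p = 0) →
      cf (dv v f) k = ph k v * cf f k := fun v h => by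
    simp_rw [dv_mul (sp_ch (-k)) hf v, dv_ch] at h
    have i1 : IntegrableOn (fun p => ch (-k) p * dv v f p) box :=
      integrableOn_box ((contDiff_ch _).continuous.mul (hf.dv v).continuous)
    have i2 : IntegrableOn (fun p => f p * (ph (-k) v * ch (-k) p)) box :=
      integrableOn_box (hf.continuous.mul (continuous_const.mul (contDiff_ch _).continuous))
    rw [integral_add i1 i2] at h
    have e : ∀ p, f p * (ph (-k) v * ch (-k) p) = -(ph k v) * (ch (-k) p * f p) := fun p => by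
      have : ph (-k) v = -(ph k v) := by simp [ph_apply, mX, mY]; ring
      rw [this]; ring
    simp only [e, integral_const_mul] at h
    simp only [cf]
    linear_combination h
  exact ⟨by rw [key _ (integral_dv_fst hp), mX_eq], by rw [key _ (integral_dv_snd hp), mY_eq]⟩

theorem summable_int : Summable fun n : ℤ => ((1 + |(n : ℝ)|) ^ 2)⁻¹ := by
  refine Summable.of_nonneg_of_le (fun n => by positivity) (fun n => ?_)
    ((Real.summable_one_div_int_pow.2 one_lt_two).add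
      (summable_of_ne_finset_zero (f := fun n : ℤ => if n = 0 then (1:ℝ) else 0) (s := {0})
        fun n hn => by simp_all))
  rcases eq_or_ne n 0 with rfl | hn
  · simp
  · simp only [if_neg hn, add_zero, one_div]
    have h1 : (0:ℝ) < |(n : ℝ)| := by positivity
    rw [← sq_abs (n : ℝ)]
    gcongr
    linarith

theorem summable_wt : Summable fun k : ℤ × ℤ => (wt k ^ 2)⁻¹ := by
  refine ((summable_int.mul_of_nonneg summable_int (fun n => by positivity)
    (fun n => by positivity))).congr fun k => ?_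
  simp only [wt, mul_pow, mul_inv]

theorem rd_of_bound {a : ℤ × ℤ → ℂ} (h : ∀ n : ℕ, ∃ C, ∀ k, wt k ^ n * ‖a k‖ ≤ C) : RD a := by
  intro n
  obtain ⟨C, hC⟩ := h (n + 2)
  refine Summable.of_nonneg_of_le (fun k => by have := wt_nonneg k; positivity) (fun k => ?_)
    (summable_wt.mul_left C)
  have hw : 0 < wt k := lt_of_lt_of_le one_pos (one_le_wt k)
  rw [le_mul_inv_iff₀ (by positivity)]
  calc wt k ^ n * ‖a k‖ * wt k ^ 2 = wt k ^ (n + 2) * ‖a k‖ := by ring
    _ ≤ C := hC k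

/-- Polynomial weights are controlled by pure powers. -/
theorem wt_pow_le (k : ℤ × ℤ) (N : ℕ) :
    wt k ^ N ≤ (2 ^ N * (1 + ‖mX k‖ ^ N)) * (2 ^ N * (1 + ‖mY k‖ ^ N)) := by
  have key : ∀ x y : ℝ, 0 ≤ x → x ≤ y → (1 + x) ^ N ≤ 2 ^ N * (1 + y ^ N) := fun x y hx hxy => by
    have hy : 0 ≤ y := hx.trans hxy
    calc (1 + x) ^ N ≤ (2 * max 1 y) ^ N :=
          pow_le_pow_left₀ (by linarith) (by have := le_max_left 1 y; have := le_max_right 1 y; linarith) N
      _ = 2 ^ N * max 1 y ^ N := mul_pow _ _ _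
      _ ≤ 2 ^ N * (1 + y ^ N) := by
        gcongr
        rcases max_cases 1 y with ⟨h, -⟩ | ⟨h, -⟩ <;> rw [h] <;>
          nlinarith [pow_nonneg hy N, one_pow N (M := ℝ)]
  have hpi : (1:ℝ) ≤ 2 * π := by linarith [Real.two_le_pi]
  have hm : ‖mX k‖ = 2 * π * |(k.1 : ℝ)| ∧ ‖mY k‖ = 2 * π * |(k.2 : ℝ)| := by
    simp [mX, mY, abs_of_pos Real.pi_pos]
  rw [hm.1, hm.2, wt, mul_pow]
  gcongr
  · exact key _ _ (abs_nonneg _) (le_mul_of_one_le_left (abs_nonneg _) hpi)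
  · exact key _ _ (abs_nonneg _) (le_mul_of_one_le_left (abs_nonneg _) hpi)

theorem norm_cf_le {f : ℝ × ℝ → ℂ} (hf : Continuous f) : ∃ C, ∀ k, ‖cf f k‖ ≤ C := by
  obtain ⟨C, hC⟩ := ((isCompact_Icc (a := (0:ℝ)) (b := 1)).prod
    (isCompact_Icc (a := (0:ℝ)) (b := 1))).exists_bound_of_continuousOn hf.continuousOn
  refine ⟨C, fun k => ?_⟩
  refine (norm_setIntegral_le_of_norm_le_const ?_ fun p hp => ?_).trans_eq (by rw [volume_box, mul_one])
  · exact ((Metric.isBounded_Ioc 0 1).prod (Metric.isBounded_Ioc 0 1)).measure_lt_top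
  · rw [norm_mul, norm_ch, one_mul]
    exact hC p ⟨Ioc_subset_Icc_self hp.1, Ioc_subset_Icc_self hp.2⟩

theorem rd_cf {f : ℝ × ℝ → ℂ} (hf : SP f) : RD (cf f) := by
  have key : ∀ a b : ℕ, ∀ g : ℝ × ℝ → ℂ, SP g →
      ∃ C, ∀ k, ‖mX k‖ ^ a * ‖mY k‖ ^ b * ‖cf g k‖ ≤ C := by
    intro a
    induction a with
    | zero =>
      intro b
      induction b with
      | zero => intro g hg; simpa using norm_cf_le hg.continuous
      | succ b ih =>
        intro g hg
        obtain ⟨C, hC⟩ := ih _ (hg.dv (0, 1))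
        refine ⟨C, fun k => le_trans (le_of_eq ?_) (hC k)⟩
        rw [(cf_dv hg k).2, norm_mul]; ring
    | succ a ih =>
      intro b g hg
      obtain ⟨C, hC⟩ := ih b _ (hg.dv (1, 0))
      refine ⟨C, fun k => le_trans (le_of_eq ?_) (hC k)⟩
      rw [(cf_dv hg k).1, norm_mul]; ring
  refine rd_of_bound fun N => ?_
  obtain ⟨C1, h1⟩ := key 0 0 f hf
  obtain ⟨C2, h2⟩ := key N 0 f hf
  obtain ⟨C3, h3⟩ := key 0 N f hf
  obtain ⟨C4, h4⟩ := key N N f hf
  refine ⟨2 ^ N * 2 ^ N * (C1 + C2 + C3 + C4), fun k => ?_⟩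
  have := h1 k; have := h2 k; have := h3 k; have := h4 k
  calc wt k ^ N * ‖cf f k‖
      ≤ (2 ^ N * (1 + ‖mX k‖ ^ N)) * (2 ^ N * (1 + ‖mY k‖ ^ N)) * ‖cf f k‖ := by
        gcongr; exact wt_pow_le k N
    _ = 2 ^ N * 2 ^ N * (‖mX k‖ ^ 0 * ‖mY k‖ ^ 0 * ‖cf f k‖ + ‖mX k‖ ^ N * ‖mY k‖ ^ 0 * ‖cf f k‖
        + ‖mX k‖ ^ 0 * ‖mY k‖ ^ N * ‖cf f k‖ + ‖mX k‖ ^ N * ‖mY k‖ ^ N * ‖cf f k‖) := by ring
    _ ≤ _ := by gcongr

/-! ### Inversion and Parseval through the torus -/

/-- The function on the torus. -/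
def onTorus (f : ℝ × ℝ → ℂ) (x : UnitAddTorus (Fin 2)) : ℂ :=
  f (Quotient.out (x 0), Quotient.out (x 1))

theorem per2_int {f : ℝ × ℝ → ℂ} (hf : Per2 f) (p : ℝ × ℝ) (m n : ℤ) :
    f (p.1 + m, p.2 + n) = f p := by
  have h1 : ∀ y, Function.Periodic (fun x => f (x, y)) 1 := fun y x => (hf (x, y)).1
  have h2 : ∀ x, Function.Periodic (fun y => f (x, y)) 1 := fun x y => (hf (x, y)).2
  have e1 := (h1 (p.2 + n)).int_mul m p.1
  have e2 := (h2 p.1).int_mul n p.2
  simp only [mul_one] at e1 e2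
  rw [e1, e2]

theorem onTorus_coe {f : ℝ × ℝ → ℂ} (hf : Per2 f) (x : Fin 2 → ℝ) :
    onTorus f (fun i => (x i : UnitAddCircle)) = f (x 0, x 1) := by
  have key : ∀ y : ℝ, ∃ m : ℤ, Quotient.out (y : UnitAddCircle) = y + m := fun y => by
    obtain ⟨⟨z, hz⟩, h⟩ := QuotientAddGroup.mk_out_eq_add (AddSubgroup.zmultiples (1:ℝ)) y
    obtain ⟨m, rfl⟩ := AddSubgroup.mem_zmultiples_iff.1 hz
    exact ⟨m, by rw [h]; simp⟩
  obtain ⟨m, hm⟩ := key (x 0)
  obtain ⟨n, hn⟩ := key (x 1)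
  rw [onTorus, hm, hn]
  exact per2_int hf (x 0, x 1) m n

theorem continuous_onTorus {f : ℝ × ℝ → ℂ} (hc : Continuous f) (hf : Per2 f) :
    Continuous (onTorus f) := by
  have hq : IsOpenQuotientMap fun (x : Fin 2 → ℝ) (i : Fin 2) => (x i : UnitAddCircle) :=
    IsOpenQuotientMap.piMap fun _ => QuotientAddGroup.isOpenQuotientMap_mk
  rw [← hq.continuous_comp_iff]
  simp only [Function.comp_def, onTorus_coe hf]
  fun_prop

theorem setIntegral_torus {E : Type*} [NormedAddCommGroup E] [NormedSpace ℝ E]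
    (g : ℝ × ℝ → E) :
    ∫ x in {x : Fin 2 → ℝ | ∀ i, x i ∈ Ioc ((0 : Fin 2 → ℝ) i) ((0 : Fin 2 → ℝ) i + 1)},
      g (x 0, x 1) = ∫ p in box, g p := by
  rw [← (volume_preserving_finTwoArrow ℝ).setIntegral_preimage_emb
    MeasurableEquiv.finTwoArrow.measurableEmbedding g box]
  congr 1
  congr 1
  ext x
  simp [box, Fin.forall_fin_two]

theorem mFourier_coe (n : Fin 2 → ℤ) (x : Fin 2 → ℝ) :
    UnitAddTorus.mFourier n (fun i => (x i : UnitAddCircle)) = ch (n 0, n 1) (x 0, x 1) := by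
  simp only [UnitAddTorus.mFourier, ContinuousMap.coe_mk, Fin.prod_univ_two, fourier_coe_apply, ch]
  rw [← Complex.exp_add]
  congr 1
  simp only [ph_apply, mX, mY]
  push_cast
  ring

theorem coeff_onTorus {f : ℝ × ℝ → ℂ} (hf : Per2 f) (n : Fin 2 → ℤ) :
    UnitAddTorus.mFourierCoeff (onTorus f) n = cf f (n 0, n 1) := by
  rw [UnitAddTorus.mFourierCoeff_eq_integral _ _ 0, cf, ← setIntegral_torus]
  simp only [onTorus_coe hf, mFourier_coe, smul_eq_mul, Pi.neg_apply, Prod.neg_mk]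

/-- The function as a continuous map on the torus. -/
def torusMap {f : ℝ × ℝ → ℂ} (hf : SP f) : C(UnitAddTorus (Fin 2), ℂ) :=
  ⟨onTorus f, continuous_onTorus hf.continuous hf.2⟩

theorem ser_cf {f : ℝ × ℝ → ℂ} (hf : SP f) : ser (cf f) = f := by
  funext p
  have hs : Summable (UnitAddTorus.mFourierCoeff (torusMap hf)) := by
    have : Summable fun n : Fin 2 → ℤ => cf f (n 0, n 1) :=
      ((rd_cf hf).summable.of_norm.comp_injective
        (piFinTwoEquiv fun _ => ℤ).injective :)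
    exact this.congr fun n => (coeff_onTorus hf.2 n).symm
  have h := UnitAddTorus.hasSum_mFourier_series_apply_of_summable hs
    (fun i => ((![p.1, p.2] i : ℝ) : UnitAddCircle))
  simp only [torusMap, ContinuousMap.coe_mk, coeff_onTorus hf.2, onTorus_coe hf.2, mFourier_coe,
    smul_eq_mul, Matrix.cons_val_zero, Matrix.cons_val_one] at h
  exact ((piFinTwoEquiv fun _ => ℤ).hasSum_iff (f := fun k => cf f k * ch k p)).1 h |>.tsum_eq

attribute [local instance] instMeasureSpaceUnitAddCircle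

local instance : IsProbabilityMeasure (volume : Measure UnitAddCircle) :=
  inferInstanceAs (IsProbabilityMeasure AddCircle.haarAddCircle)

theorem parseval {f : ℝ × ℝ → ℂ} (hf : SP f) :
    HasSum (fun k => ‖cf f k‖ ^ 2) (∫ p in box, ‖f p‖ ^ 2) := by
  have h := UnitAddTorus.hasSum_sq_mFourierCoeff
    (ContinuousMap.toLp 2 volume ℂ (torusMap hf))
  simp only [UnitAddTorus.mFourierCoeff_toLp] at h
  rw [integral_congr_ae (g := fun t => ‖torusMap hf t‖ ^ 2) (by
    filter_upwards [(torusMap hf).coeFn_toLp (p := 2) (μ := volume) (𝕜 := ℂ)] with t ht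
    rw [ht]), UnitAddTorus.integral_preimage _ 0] at h
  simp only [torusMap, ContinuousMap.coe_mk, coeff_onTorus hf.2, onTorus_coe hf.2] at h
  rw [setIntegral_torus fun p => ‖f p‖ ^ 2] at h
  exact ((piFinTwoEquiv fun _ => ℤ).hasSum_iff (f := fun k => ‖cf f k‖ ^ 2)).1 h

end

end Vale.Agent.P205.Fou
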