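import Mathlib

/-!
Circle-invariant metrics on the torus immerse isometrically in four-space (P205).
-/

namespace Vale.Agent.P205

open scoped ContDiff Real RealInnerProductSpace
open Set MeasureTheory

noncomputable section

/-- The circle-invariant torus metrics immerse smoothly and isometrically in `ℝ⁴`. -/
def InvariantTorusImmerses : Prop :=
  ∀ A B C : ℝ → ℝ, ContDiff ℝ ∞ A → ContDiff ℝ ∞ B → ContDiff ℝ ∞ C →
    Function.Periodic A 1 → Function.Periodic B 1 → Function.Periodic C 1 →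
    (∀ t, 0 < C t) → (∀ t, 0 < A t * C t - B t ^ 2) →
    ∃ F : ℝ × ℝ → EuclideanSpace ℝ (Fin 4), ContDiff ℝ ∞ F ∧
      (∀ t θ, F (t + 1, θ) = F (t, θ) ∧ F (t, θ + 2 * π) = F (t, θ)) ∧
      ∀ p v w : ℝ × ℝ, ⟪fderiv ℝ F p v, fderiv ℝ F p w⟫ =
        A p.1 * (v.1 * w.1) + B p.1 * (v.1 * w.2 + v.2 * w.1) + C p.1 * (v.2 * w.2)

/-- The profile. -/
def prof (x : ℝ × ℝ × ℝ × ℝ) : ℝ := 1 + x.2.2.1 / 2 * Real.cos (2 * π * x.2.2.2)

/-- The derivative of the profile in the time variable. -/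
def prof' (x : ℝ × ℝ × ℝ × ℝ) : ℝ := -(x.2.2.1 * π * Real.sin (2 * π * x.2.2.2))

/-- One minus the squared relative radius. -/
def rad (x : ℝ × ℝ × ℝ × ℝ) : ℝ := 1 - x.1 ^ 2 * prof x ^ 2

/-- The derivative of the first radius times the multiplicity. -/
def radU' (C : ℝ → ℝ) (x : ℝ × ℝ × ℝ × ℝ) : ℝ :=
  deriv C x.2.2.2 / (2 * Real.sqrt (C x.2.2.2)) * Real.sqrt (rad x) -
    Real.sqrt (C x.2.2.2) * (x.1 ^ 2 * prof x * prof' x / Real.sqrt (rad x))

/-- The derivative of the second radius. -/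
def radR' (C : ℝ → ℝ) (x : ℝ × ℝ × ℝ × ℝ) : ℝ :=
  x.1 * (deriv C x.2.2.2 / (2 * Real.sqrt (C x.2.2.2)) * prof x + Real.sqrt (C x.2.2.2) * prof' x)

/-- What is left for the angular speeds. -/
def energy (A B C : ℝ → ℝ) (x : ℝ × ℝ × ℝ × ℝ) : ℝ :=
  A x.2.2.2 * C x.2.2.2 - B x.2.2.2 ^ 2 -
    C x.2.2.2 * (x.2.1 ^ 2 * radU' C x ^ 2 + radR' C x ^ 2)

/-- The admissible parameters. -/
def admissible (A B C : ℝ → ℝ) : Set (ℝ × ℝ × ℝ × ℝ) :=
  {x | 0 < rad x ∧ 0 < prof x ∧ 0 < energy A B C x}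

/-- The integrand of the second angle. -/
def fI (A B C : ℝ → ℝ) (x : ℝ × ℝ × ℝ × ℝ) : ℝ :=
  Real.sqrt (rad x) * Real.sqrt (energy A B C x) / (prof x * C x.2.2.2)

/-- The integrand of the first angle. -/
def fJ (A B C : ℝ → ℝ) (x : ℝ × ℝ × ℝ × ℝ) : ℝ :=
  prof x * Real.sqrt (energy A B C x) / (Real.sqrt (rad x) * C x.2.2.2)

/-- Hypotheses on the metric. -/
structure IsMetric (A B C : ℝ → ℝ) : Prop where
  smoothA : ContDiff ℝ ∞ A
  smoothB : ContDiff ℝ ∞ B
  smoothC : ContDiff ℝ ∞ C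
  perA : Function.Periodic A 1
  perB : Function.Periodic B 1
  perC : Function.Periodic C 1
  posC : ∀ t, 0 < C t
  posDet : ∀ t, 0 < A t * C t - B t ^ 2

variable {A B C : ℝ → ℝ}

lemma contDiff_time {f : ℝ → ℝ} (hf : ContDiff ℝ ∞ f) :
    ContDiff ℝ ∞ fun x : ℝ × ℝ × ℝ × ℝ => f x.2.2.2 :=
  hf.comp (contDiff_snd.comp (contDiff_snd.comp contDiff_snd))

lemma contDiff_prof : ContDiff ℝ ∞ prof := by unfold prof; fun_prop

lemma contDiff_prof' : ContDiff ℝ ∞ prof' := by unfold prof'; fun_prop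

lemma contDiff_rad : ContDiff ℝ ∞ rad :=
  contDiff_const.sub ((contDiff_fst.pow 2).mul (contDiff_prof.pow 2))

lemma isOpen_profRad : IsOpen {x : ℝ × ℝ × ℝ × ℝ | 0 < rad x ∧ 0 < prof x} :=
  (isOpen_lt continuous_const contDiff_rad.continuous).inter (isOpen_lt continuous_const contDiff_prof.continuous)

lemma IsMetric.smoothC' (h : IsMetric A B C) : ContDiff ℝ ∞ (deriv C) :=
  (contDiff_infty_iff_deriv.1 h.smoothC).2

lemma contDiffAt_energy (h : IsMetric A B C) {x : ℝ × ℝ × ℝ × ℝ} (hx : 0 < rad x) :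
    ContDiffAt ℝ ∞ (energy A B C) x := by
  have hA := (contDiff_time h.smoothA).contDiffAt (x := x)
  have hB := (contDiff_time h.smoothB).contDiffAt (x := x)
  have hC := (contDiff_time h.smoothC).contDiffAt (x := x)
  have hC' := (contDiff_time h.smoothC').contDiffAt (x := x)
  have hc := hC.sqrt (h.posC _).ne'
  have hm := (contDiff_rad.contDiffAt (x := x)).sqrt hx.ne'
  have hk := contDiff_prof.contDiffAt (x := x)
  have hk' := contDiff_prof'.contDiffAt (x := x)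
  have h2c := hC'.div (contDiffAt_const (c := (2 : ℝ)).mul hc) (by have := h.posC x.2.2.2; positivity)
  have hu : ContDiffAt ℝ ∞ (radU' C) x :=
    (h2c.mul hm).sub (hc.mul ((((contDiff_fst.pow 2).contDiffAt.mul hk).mul hk').div hm (by positivity)))
  have hr : ContDiffAt ℝ ∞ (radR' C) x := contDiff_fst.contDiffAt.mul ((h2c.mul hk).add (hc.mul hk'))
  exact ((hA.mul hC).sub (hB.pow 2)).sub
    (hC.mul ((((contDiff_fst.comp contDiff_snd).pow 2).contDiffAt.mul (hu.pow 2)).add (hr.pow 2)))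

lemma isOpen_admissible (h : IsMetric A B C) : IsOpen (admissible A B C) := by
  have : admissible A B C = {x | 0 < rad x ∧ 0 < prof x} ∩ energy A B C ⁻¹' Ioi 0 := by
    ext x; simp [admissible, and_assoc]
  rw [this]
  exact ContinuousOn.isOpen_inter_preimage
    (fun x hx => (contDiffAt_energy h hx.1).continuousAt.continuousWithinAt) isOpen_profRad isOpen_Ioi

lemma contDiffAt_fI (h : IsMetric A B C) {x : ℝ × ℝ × ℝ × ℝ} (hx : x ∈ admissible A B C) :
    ContDiffAt ℝ ∞ (fI A B C) x :=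
  ((contDiff_rad.contDiffAt.sqrt hx.1.ne').mul ((contDiffAt_energy h hx.1).sqrt hx.2.2.ne')).div
    (contDiff_prof.contDiffAt.mul (contDiff_time h.smoothC).contDiffAt) (mul_pos hx.2.1 (h.posC _)).ne'

lemma contDiffAt_fJ (h : IsMetric A B C) {x : ℝ × ℝ × ℝ × ℝ} (hx : x ∈ admissible A B C) :
    ContDiffAt ℝ ∞ (fJ A B C) x :=
  (contDiff_prof.contDiffAt.mul ((contDiffAt_energy h hx.1).sqrt hx.2.2.ne')).div
    ((contDiff_rad.contDiffAt.sqrt hx.1.ne').mul (contDiff_time h.smoothC).contDiffAt)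
      (mul_pos (Real.sqrt_pos.2 hx.1) (h.posC _)).ne'

lemma prof_periodic (ρ ε s t : ℝ) : prof (ρ, ε, s, t + 1) = prof (ρ, ε, s, t) ∧
    prof' (ρ, ε, s, t + 1) = prof' (ρ, ε, s, t) := by
  simp [prof, prof', mul_add, Real.cos_add_two_pi, Real.sin_add_two_pi]

lemma all_periodic (h : IsMetric A B C) (ρ ε s t : ℝ) :
    rad (ρ, ε, s, t + 1) = rad (ρ, ε, s, t) ∧
    energy A B C (ρ, ε, s, t + 1) = energy A B C (ρ, ε, s, t) ∧
    fI A B C (ρ, ε, s, t + 1) = fI A B C (ρ, ε, s, t) ∧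
    fJ A B C (ρ, ε, s, t + 1) = fJ A B C (ρ, ε, s, t) := by
  have hd : deriv C (t + 1) = deriv C t := by
    rw [← deriv_comp_add_const C 1 t, show (fun y => C (y + 1)) = C from funext h.perC]
  simp [rad, energy, radU', radR', fI, fJ, (prof_periodic ρ ε s t).1, (prof_periodic ρ ε s t).2, hd,
    h.perA t, h.perB t, h.perC t]

lemma zero_admissible (h : IsMetric A B C) {s : ℝ} (hs : s ∈ Icc (0 : ℝ) 1) (t : ℝ) :
    (0, 0, s, t) ∈ admissible A B C := by
  have hk : 0 < prof (0, 0, s, t) := by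
    have h1 := Real.neg_one_le_cos (2 * π * t)
    simp only [prof]; nlinarith [hs.1, hs.2]
  exact ⟨by simp [rad], hk, by simpa [energy, radR'] using h.posDet t⟩

/-- The box of parameters. -/
def box (δ : ℝ) : Set (ℝ × ℝ × ℝ × ℝ) := Icc (-δ) δ ×ˢ Icc (-δ) δ ×ˢ Icc (0 : ℝ) 1 ×ˢ Icc (0 : ℝ) 1

lemma exists_box (h : IsMetric A B C) : ∃ δ > 0, box δ ⊆ admissible A B C := by
  have hK : IsCompact (({0} : Set ℝ) ×ˢ ({0} : Set ℝ) ×ˢ Icc (0 : ℝ) 1 ×ˢ Icc (0 : ℝ) 1) :=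
    isCompact_singleton.prod (isCompact_singleton.prod (isCompact_Icc.prod isCompact_Icc))
  obtain ⟨δ, hδ, hsub⟩ := hK.exists_cthickening_subset_open (isOpen_admissible h) (by
    rintro ⟨a, b, s, t⟩ ⟨ha, hb, hs, -⟩
    simp only [mem_singleton_iff] at ha hb
    subst ha hb
    exact zero_admissible h hs t)
  refine ⟨δ, hδ, fun x hx => hsub ?_⟩
  obtain ⟨a, b, s, t⟩ := x
  obtain ⟨ha, hb, hs, ht⟩ := hx
  refine Metric.mem_cthickening_of_dist_le (a, b, s, t) (0, 0, s, t) δ _ ⟨rfl, rfl, hs, ht⟩ ?_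
  simp only [Prod.dist_eq, Real.dist_eq, sub_zero, sub_self, abs_zero, max_le_iff, abs_le]
  exact ⟨ha, hb, hδ.le, hδ.le⟩

lemma mem_admissible_of_box (h : IsMetric A B C) {δ : ℝ} (hbox : box δ ⊆ admissible A B C) {ρ ε s : ℝ}
    (hρ : ρ ∈ Icc (-δ) δ) (hε : ε ∈ Icc (-δ) δ) (hs : s ∈ Icc (0 : ℝ) 1) (t : ℝ) :
    (ρ, ε, s, t) ∈ admissible A B C := by
  have p1 : Function.Periodic (fun t => rad (ρ, ε, s, t)) 1 := fun t => (all_periodic h ρ ε s t).1
  have p2 : Function.Periodic (fun t => energy A B C (ρ, ε, s, t)) 1 := fun t => (all_periodic h ρ ε s t).2.1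
  have p3 : Function.Periodic (fun t => prof (ρ, ε, s, t)) 1 := fun t => (prof_periodic ρ ε s t).1
  have hm := hbox (show (ρ, ε, s, Int.fract t) ∈ box δ from
    ⟨hρ, hε, hs, Int.fract_nonneg t, (Int.fract_lt_one t).le⟩)
  have e : ∀ f : ℝ → ℝ, Function.Periodic f 1 → f (Int.fract t) = f t := fun f hf => by
    have := hf.sub_int_mul_eq (x := t) ⌊t⌋
    rw [mul_one] at this
    exact this
  exact ⟨(e _ p1) ▸ hm.1, (e _ p3) ▸ hm.2.1, (e _ p2) ▸ hm.2.2⟩

/-- The integral of a function of the parameters over a period. -/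
def perInt (f : ℝ × ℝ × ℝ × ℝ → ℝ) (y : ℝ × ℝ × ℝ) : ℝ := ∫ t in (0 : ℝ)..1, f (y.1, y.2.1, y.2.2, t)

/-- Uniform bounds. -/
lemma exists_bounds {f : ℝ × ℝ × ℝ × ℝ → ℝ} {δ : ℝ} (hf : ∀ x ∈ box δ, ContDiffAt ℝ ∞ f x) :
    ∃ L : ℝ, 0 < L ∧ ∀ y ∈ Icc (-δ) δ ×ˢ Icc (-δ) δ ×ˢ Icc (0 : ℝ) 1,
      |perInt f y| ≤ L ∧ ∀ y' ∈ Icc (-δ) δ ×ˢ Icc (-δ) δ ×ˢ Icc (0 : ℝ) 1,
        |perInt f y - perInt f y'| ≤ L * dist y y' := by
  have hK : IsCompact (box δ) := isCompact_Icc.prod (isCompact_Icc.prod (isCompact_Icc.prod isCompact_Icc))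
  have hC : Convex ℝ (box δ) :=
    (convex_Icc _ _).prod ((convex_Icc _ _).prod ((convex_Icc _ _).prod (convex_Icc _ _)))
  have hd : ContDiffOn ℝ ∞ f (box δ) := fun x hx => (hf x hx).contDiffWithinAt
  obtain ⟨K, hKL⟩ := hd.exists_lipschitzOnWith (by simp) hC hK
  obtain ⟨M, hM⟩ := hK.exists_bound_of_continuousOn hd.continuousOn
  have hint : ∀ y ∈ Icc (-δ) δ ×ˢ Icc (-δ) δ ×ˢ Icc (0 : ℝ) 1,
      IntervalIntegrable (fun t => f (y.1, y.2.1, y.2.2, t)) volume 0 1 := fun y hy =>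
    ContinuousOn.intervalIntegrable (hd.continuousOn.comp (by fun_prop) fun t ht => by
      rw [uIcc_of_le zero_le_one] at ht
      exact ⟨hy.1, hy.2.1, hy.2.2, ht⟩)
  refine ⟨max (max (K : ℝ) M) 1, lt_max_of_lt_right one_pos, fun y hy => ⟨?_, fun y' hy' => ?_⟩⟩
  · have := intervalIntegral.norm_integral_le_of_norm_le_const (a := (0 : ℝ)) (b := 1) (C := max (max (K : ℝ) M) 1)
      (f := fun t => f (y.1, y.2.1, y.2.2, t)) fun t ht => by
        rw [uIoc_of_le zero_le_one] at ht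
        exact (hM _ ⟨hy.1, hy.2.1, hy.2.2, ht.1.le, ht.2⟩).trans ((le_max_right _ _).trans (le_max_left _ _))
    simpa [perInt, Real.norm_eq_abs] using this
  · rw [perInt, perInt, ← intervalIntegral.integral_sub (hint y hy) (hint y' hy'), ← Real.norm_eq_abs]
    refine (intervalIntegral.norm_integral_le_of_norm_le_const (C := max (max (K : ℝ) M) 1 * dist y y')
      fun t ht => ?_).trans (le_of_eq (by norm_num))
    rw [uIoc_of_le zero_le_one] at ht
    rw [← dist_eq_norm]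
    refine (hKL.dist_le_mul _ ⟨hy.1, hy.2.1, hy.2.2, ht.1.le, ht.2⟩ _ ⟨hy'.1, hy'.2.1, hy'.2.2, ht.1.le, ht.2⟩).trans ?_
    refine mul_le_mul ((le_max_left _ _).trans (le_max_left _ _)) ?_ dist_nonneg (by positivity)
    simp only [Prod.dist_eq, dist_self]
    simp

lemma perInt_fI_pos (h : IsMetric A B C) {δ : ℝ} (hbox : box δ ⊆ admissible A B C) {y : ℝ × ℝ × ℝ}
    (hy : y ∈ Icc (-δ) δ ×ˢ Icc (-δ) δ ×ˢ Icc (0 : ℝ) 1) : 0 < perInt (fI A B C) y := by
  have hm := fun t => mem_admissible_of_box h hbox hy.1 hy.2.1 hy.2.2 t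
  refine intervalIntegral.intervalIntegral_pos_of_pos_on (ContinuousOn.intervalIntegrable ?_) (fun t _ => ?_) one_pos
  · intro t _
    exact ((contDiffAt_fI h (hm t)).continuousAt.comp (f := fun t => (y.1, y.2.1, y.2.2, t))
      (by fun_prop)).continuousWithinAt
  · obtain ⟨h1, h2, h3⟩ := hm t
    have := h.posC t
    exact div_pos (mul_pos (Real.sqrt_pos.2 h1) (Real.sqrt_pos.2 h3)) (mul_pos h2 this)

lemma product_increases (h : IsMetric A B C) :
    perInt (fI A B C) (0, 0, 0) * perInt (fJ A B C) (0, 0, 0)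
      < perInt (fI A B C) (0, 0, 1) * perInt (fJ A B C) (0, 0, 1) := by
  let μ : ℝ → ℝ := fun t => Real.sqrt (A t * C t - B t ^ 2) / C t
  let k : ℝ → ℝ := fun t => 1 + Real.cos (2 * π * t) / 2
  have hμ : Continuous μ := Continuous.div₀ ((((h.smoothA.continuous.mul h.smoothC.continuous).sub
    (h.smoothB.continuous.pow 2))).sqrt) h.smoothC.continuous fun t => (h.posC t).ne'
  have hμ0 : ∀ t, 0 < μ t := fun t => div_pos (Real.sqrt_pos.2 (h.posDet t)) (h.posC t)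
  have hk : Continuous k := by fun_prop
  have hk0 : ∀ t, 0 < k t := fun t => by
    have := Real.neg_one_le_cos (2 * π * t); simp only [k]; linarith
  have e0 : ∀ t, fI A B C (0, 0, 0, t) = μ t ∧ fJ A B C (0, 0, 0, t) = μ t := fun t => by
    simp [fI, fJ, energy, radR', rad, prof, μ]
  have e1 : ∀ t, fI A B C (0, 0, 1, t) = μ t / k t ∧ fJ A B C (0, 0, 1, t) = μ t * k t := fun t => by
    constructor
    · simp [fI, energy, radR', rad, prof, μ, k, div_div]; ring_nf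
    · simp [fJ, energy, radR', rad, prof, μ, k]; ring
  simp only [perInt, (e0 _).1, (e0 _).2, (e1 _).1, (e1 _).2]
  set M := ∫ t in (0 : ℝ)..1, μ t
  set P := ∫ t in (0 : ℝ)..1, μ t / k t
  set R := ∫ t in (0 : ℝ)..1, μ t * k t
  have hR : 0 < R := intervalIntegral.intervalIntegral_pos_of_pos_on ((hμ.mul hk).intervalIntegrable _ _)
    (fun t _ => mul_pos (hμ0 t) (hk0 t)) one_pos
  set l := M / R
  have hpos : 0 < ∫ t in (0 : ℝ)..1, μ t * (l * k t - 1) ^ 2 / k t := by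
    have hc : Continuous fun t => μ t * (l * k t - 1) ^ 2 / k t :=
      Continuous.div₀ (by fun_prop) hk fun t => (hk0 t).ne'
    refine intervalIntegral.integral_pos one_pos hc.continuousOn (fun t _ => div_nonneg
      (mul_nonneg (hμ0 t).le (sq_nonneg _)) (hk0 t).le) ?_
    by_contra hne
    push Not at hne
    have z : ∀ t ∈ Icc (0 : ℝ) 1, l * k t = 1 := by
      intro t ht
      by_contra hl
      have := hne t ht
      have h2 : 0 < μ t * (l * k t - 1) ^ 2 / k t :=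
        div_pos (mul_pos (hμ0 t) (lt_of_le_of_ne (sq_nonneg _) (Ne.symm (pow_ne_zero 2 (sub_ne_zero.2 hl))))) (hk0 t)
      linarith
    have z0 := z 0 (by norm_num)
    have z1 := z (1 / 2) (by norm_num)
    simp only [k] at z0 z1
    rw [show 2 * π * (1 / 2 : ℝ) = π by ring, Real.cos_pi] at z1
    rw [mul_zero, Real.cos_zero] at z0
    linarith
  have hexp : ∫ t in (0 : ℝ)..1, μ t * (l * k t - 1) ^ 2 / k t = l ^ 2 * R - 2 * l * M + P := by
    have he : ∀ t, μ t * (l * k t - 1) ^ 2 / k t = l ^ 2 * (μ t * k t) - 2 * l * μ t + μ t / k t := fun t => by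
      have := (hk0 t).ne'
      field_simp
      ring
    simp only [he]
    have i1 : IntervalIntegrable (fun t => l ^ 2 * (μ t * k t)) volume 0 1 :=
      (continuous_const.mul (hμ.mul hk)).intervalIntegrable _ _
    have i2 : IntervalIntegrable (fun t => 2 * l * μ t) volume 0 1 :=
      (continuous_const.mul hμ).intervalIntegrable _ _
    rw [intervalIntegral.integral_add (i1.sub i2) ((Continuous.div₀ hμ hk fun t => (hk0 t).ne').intervalIntegrable _ _),
      intervalIntegral.integral_sub i1 i2, intervalIntegral.integral_const_mul, intervalIntegral.integral_const_mul]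
  rw [hexp] at hpos
  have : l ^ 2 * R - 2 * l * M + P = (P * R - M * M) / R := by simp only [l]; field_simp; ring
  rw [this, lt_div_iff₀ hR] at hpos
  linarith

/-- A solution of the two closing conditions. -/
lemma exists_parameters (h : IsMetric A B C) :
    ∃ (N q : ℕ) (p : ℤ) (ρ s : ℝ), 0 < N ∧ 0 < ρ ∧
      (∀ t, (ρ, (1 : ℝ) / N, s, t) ∈ admissible A B C) ∧
      (∫ t in (0 : ℝ)..1, B t / C t) + perInt (fI A B C) (ρ, 1 / N, s) / ρ = 2 * π * q ∧
      (N : ℝ) * ((∫ t in (0 : ℝ)..1, B t / C t) - ρ * perInt (fJ A B C) (ρ, 1 / N, s)) = 2 * π * p := by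
  obtain ⟨δ, hδ, hbox⟩ := exists_box h
  obtain ⟨L₁, hL₁, hI⟩ := exists_bounds (δ := δ) fun x hx => contDiffAt_fI h (hbox hx)
  obtain ⟨L₂, hL₂, hJ⟩ := exists_bounds (δ := δ) fun x hx => contDiffAt_fJ h (hbox hx)
  set K := ∫ t in (0 : ℝ)..1, B t / C t
  set I := perInt (fI A B C)
  set J := perInt (fJ A B C)
  set Y := Icc (-δ) δ ×ˢ Icc (-δ) δ ×ˢ Icc (0 : ℝ) 1
  set Δ := I (0, 0, 1) * J (0, 0, 1) - I (0, 0, 0) * J (0, 0, 0)
  have hΔ : 0 < Δ := sub_pos.2 (product_increases h)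
  have hprod : ∀ y ∈ Y, ∀ y' ∈ Y, |I y * J y - I y' * J y'| ≤ 2 * L₁ * L₂ * dist y y' := by
    intro y hy y' hy'
    have a1 := (hI y hy).1
    have a2 := (hI y hy).2 y' hy'
    have b1 := (hJ y' hy').1
    have b2 := (hJ y hy).2 y' hy'
    calc |I y * J y - I y' * J y'| = |I y * (J y - J y') + (I y - I y') * J y'| := by ring_nf
      _ ≤ |I y * (J y - J y')| + |(I y - I y') * J y'| := abs_add_le _ _
      _ ≤ L₁ * (L₂ * dist y y') + L₁ * dist y y' * L₂ := by
          rw [abs_mul, abs_mul]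
          exact add_le_add (mul_le_mul a1 b2 (abs_nonneg _) hL₁.le)
            (mul_le_mul a2 b1 (abs_nonneg _) (mul_nonneg hL₁.le dist_nonneg))
      _ = 2 * L₁ * L₂ * dist y y' := by ring
  obtain ⟨q, hq⟩ := exists_nat_gt ((K + 2 * L₁ + L₁ / δ + 16 * L₁ * L₁ * L₂ / Δ) / (2 * π))
  set Q := 2 * π * (q : ℝ) - K
  have hQ : 2 * L₁ + L₁ / δ + 16 * L₁ * L₁ * L₂ / Δ < Q := by
    rw [div_lt_iff₀ (by positivity)] at hq
    simp only [Q]; linarith
  have hd1 : 0 ≤ L₁ / δ := by positivity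
  have hd2 : 0 ≤ 16 * L₁ * L₁ * L₂ / Δ := by positivity
  have hQ0 : 0 < Q := by linarith
  have hρmax : L₁ / Q ≤ δ := by
    rw [div_le_iff₀ hQ0]
    have : L₁ / δ < Q := by linarith
    rw [div_lt_iff₀ hδ] at this
    linarith
  obtain ⟨N, hN⟩ := exists_nat_gt (1 + 1 / δ + 16 * L₁ * L₂ / Δ + 4 * π * Q / Δ)
  have hN1 : (1 : ℝ) < N := lt_of_le_of_lt (by
    have : 0 ≤ 1 / δ + 16 * L₁ * L₂ / Δ + 4 * π * Q / Δ := by positivity
    linarith) hN
  have hN0 : (0 : ℝ) < N := one_pos.trans hN1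
  set ε := (1 : ℝ) / N
  have hε0 : 0 < ε := by positivity
  have hεδ : ε ≤ δ := by
    have h2 : 1 / δ ≤ N := by
      have : 0 ≤ 16 * L₁ * L₂ / Δ + 4 * π * Q / Δ := by positivity
      linarith
    rw [div_le_iff₀ hδ] at h2
    simp only [ε]; rw [div_le_iff₀ hN0]; linarith
  have hεY : ε ∈ Icc (-δ) δ := ⟨by linarith, hεδ⟩
  have hex : ∀ s ∈ Icc (0 : ℝ) 1, ∃ ρ ∈ Icc (0 : ℝ) (L₁ / Q), ρ * Q = I (ρ, ε, s) := by
    intro s hs
    have hmem : ∀ ρ ∈ Icc (0 : ℝ) (L₁ / Q), (ρ, ε, s) ∈ Y := fun ρ hρ =>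
      ⟨⟨by linarith [hρ.1], hρ.2.trans hρmax⟩, hεY, hs⟩
    have hc : ContinuousOn (fun ρ => ρ * Q - I (ρ, ε, s)) (Icc (0 : ℝ) (L₁ / Q)) := by
      refine (continuous_id.mul continuous_const).continuousOn.sub ?_
      refine (LipschitzOnWith.of_dist_le_mul (K := ⟨L₁, hL₁.le⟩) fun a ha b hb => ?_).continuousOn
      rw [Real.dist_eq]
      refine ((hI _ (hmem a ha)).2 _ (hmem b hb)).trans (le_of_eq ?_)
      simp [Prod.dist_eq]
      exact Or.inl rfl
    have hpos0 := perInt_fI_pos h hbox (hmem 0 ⟨le_rfl, by positivity⟩)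
    have hle := le_of_abs_le (hI _ (hmem (L₁ / Q) ⟨by positivity, le_rfl⟩)).1
    obtain ⟨ρ, hρ, hρ0⟩ := intermediate_value_Icc (by positivity) hc
      (show (0 : ℝ) ∈ Icc ((0 : ℝ) * Q - I (0, ε, s)) (L₁ / Q * Q - I (L₁ / Q, ε, s)) by
        constructor
        · simp only [I] at hpos0 ⊢; linarith
        · rw [div_mul_cancel₀ _ hQ0.ne']; linarith)
    exact ⟨ρ, hρ, by simpa [sub_eq_zero] using hρ0⟩
  choose! ρ hρ hfix using hex
  have hY : ∀ s ∈ Icc (0 : ℝ) 1, (ρ s, ε, s) ∈ Y := fun s hs =>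
    ⟨⟨by linarith [(hρ s hs).1], (hρ s hs).2.trans hρmax⟩, hεY, hs⟩
  have hdist : ∀ s ∈ Icc (0 : ℝ) 1, ∀ s' ∈ Icc (0 : ℝ) 1, dist (ρ s, ε, s) (ρ s', ε, s') ≤ 2 * |s - s'| := by
    intro s hs s' hs'
    have h1 := (hI _ (hY s hs)).2 _ (hY s' hs')
    have h1' : |ρ s - ρ s'| * Q ≤ L₁ * dist (ρ s, ε, s) (ρ s', ε, s') := by
      rwa [← abs_of_pos hQ0, ← abs_mul, sub_mul, hfix s hs, hfix s' hs']
    simp only [Prod.dist_eq, dist_self, Real.dist_eq] at h1' ⊢
    have h2 : max |ρ s - ρ s'| (max 0 |s - s'|) ≤ |ρ s - ρ s'| + |s - s'| :=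
      max_le (le_add_of_nonneg_right (abs_nonneg _)) (max_le (by positivity) (le_add_of_nonneg_left (abs_nonneg _)))
    have h3 : |ρ s - ρ s'| ≤ |s - s'| := by
      nlinarith [mul_le_mul_of_nonneg_left h2 hL₁.le, abs_nonneg (ρ s - ρ s'), abs_nonneg (s - s')]
    exact max_le (by linarith [abs_nonneg (s - s')]) (max_le (by positivity) (by linarith [abs_nonneg (s - s')]))
  let G : ℝ → ℝ := fun s => I (ρ s, ε, s) * J (ρ s, ε, s)
  have hG : ContinuousOn G (Icc 0 1) :=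
    (LipschitzOnWith.of_dist_le_mul (K := ⟨4 * L₁ * L₂, by positivity⟩) fun a ha b hb => by
      rw [Real.dist_eq, Real.dist_eq]
      refine (hprod _ (hY a ha) _ (hY b hb)).trans ?_
      show 2 * L₁ * L₂ * dist (ρ a, ε, a) (ρ b, ε, b) ≤ 4 * L₁ * L₂ * |a - b|
      calc 2 * L₁ * L₂ * dist (ρ a, ε, a) (ρ b, ε, b) ≤ 2 * L₁ * L₂ * (2 * |a - b|) := by
            gcongr; exact hdist a ha b hb
        _ = _ := by ring).continuousOn
  have hnear : ∀ s ∈ Icc (0 : ℝ) 1, |G s - I (0, 0, s) * J (0, 0, s)| ≤ Δ / 4 := by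
    intro s hs
    refine (hprod _ (hY s hs) _ ⟨⟨by linarith, hδ.le⟩, ⟨by linarith, hδ.le⟩, hs⟩).trans ?_
    have hd : dist (ρ s, ε, s) ((0 : ℝ), (0 : ℝ), s) ≤ L₁ / Q + ε := by
      simp only [Prod.dist_eq, dist_self, Real.dist_eq, sub_zero]
      rw [abs_of_nonneg (hρ s hs).1, abs_of_pos hε0]
      have : 0 ≤ L₁ / Q := by positivity
      exact max_le (by linarith [(hρ s hs).2]) (max_le (by linarith) (by linarith))
    refine (mul_le_mul_of_nonneg_left hd (by positivity)).trans ?_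
    have e1 : 2 * L₁ * L₂ * (L₁ / Q) ≤ Δ / 8 := by
      rw [← mul_div_assoc, div_le_iff₀ hQ0]
      have : 16 * L₁ * L₁ * L₂ / Δ < Q := by linarith
      rw [div_lt_iff₀ hΔ] at this
      linarith
    have e2 : 2 * L₁ * L₂ * ε ≤ Δ / 8 := by
      have : 16 * L₁ * L₂ / Δ < N := by
        have : 0 ≤ 1 / δ + 4 * π * Q / Δ := by positivity
        linarith
      rw [div_lt_iff₀ hΔ] at this
      simp only [ε]
      rw [← mul_div_assoc, div_le_iff₀ hN0]
      linarith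
    linarith [mul_add (2 * L₁ * L₂) (L₁ / Q) ε]
  have hgap : Δ / 2 ≤ G 1 - G 0 := by
    have h0 := abs_le.1 (hnear 0 (by norm_num))
    have h1 := abs_le.1 (hnear 1 (by norm_num))
    simp only [Δ] at h0 h1 ⊢
    linarith
  set lo := (N : ℝ) * (K - G 1 / Q) / (2 * π)
  set p := ⌈lo⌉
  have hp1 : lo ≤ p := Int.le_ceil _
  have hp2 : (p : ℝ) < lo + 1 := Int.ceil_lt_add_one _
  have htop : lo + 1 ≤ (N : ℝ) * (K - G 0 / Q) / (2 * π) := by
    have hh : 4 * π * Q / Δ < N := by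
      have : 0 ≤ 1 / δ + 16 * L₁ * L₂ / Δ := by positivity
      linarith
    rw [div_lt_iff₀ hΔ] at hh
    have heq : (N : ℝ) * (K - G 0 / Q) / (2 * π) - lo = N * (G 1 - G 0) / (Q * (2 * π)) := by
      simp only [lo]; field_simp; ring
    have hge : 1 ≤ (N : ℝ) * (G 1 - G 0) / (Q * (2 * π)) := by
      rw [le_div_iff₀ (by positivity)]
      nlinarith [mul_le_mul_of_nonneg_left hgap hN0.le]
    linarith
  have hc2 : ContinuousOn (fun s => (N : ℝ) * (K - G s / Q) / (2 * π)) (Icc 0 1) :=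
    (((continuousOn_const).sub (hG.div_const Q)).const_mul _ |>.div_const _)
  obtain ⟨s, hs, hsp⟩ := intermediate_value_Icc' zero_le_one hc2
    (show (p : ℝ) ∈ Icc _ _ from ⟨hp1, (hp2.trans_le htop).le⟩)
  have hIpos := perInt_fI_pos h hbox (hY s hs)
  have hρpos : 0 < ρ s := by
    rcases (hρ s hs).1.lt_or_eq with h' | h'
    · exact h'
    · have := hfix s hs; rw [← h', zero_mul] at this
      simp only [I, ← h'] at this hIpos; linarith
  refine ⟨N, q, p, ρ s, s, by exact_mod_cast hN0, hρpos,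
    mem_admissible_of_box h hbox (hY s hs).1 hεY hs, ?_, ?_⟩
  · show K + I (ρ s, ε, s) / ρ s = 2 * π * q
    rw [← hfix s hs, mul_div_cancel_left₀ _ hρpos.ne']
    simp [Q]
  · show (N : ℝ) * (K - ρ s * J (ρ s, ε, s)) = 2 * π * p
    have hGs : G s / Q = ρ s * J (ρ s, ε, s) := by
      simp only [G]; rw [← hfix s hs]; field_simp
    rw [← hGs]
    simp only at hsp
    rw [← hsp]; field_simp

/-- A primitive with periodic derivative. -/
lemma exists_angle {f : ℝ → ℝ} (hf : ContDiff ℝ ∞ f) (hper : Function.Periodic f 1) :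
    ∃ g : ℝ → ℝ, ContDiff ℝ ∞ g ∧ (∀ t, HasDerivAt g (f t) t) ∧
      ∀ t, g (t + 1) = g t + ∫ x in (0 : ℝ)..1, f x := by
  have hd : ∀ t, HasDerivAt (fun u => ∫ x in (0 : ℝ)..u, f x) (f t) t := fun t =>
    hf.continuous.integral_hasStrictDerivAt 0 t |>.hasDerivAt
  refine ⟨fun u => ∫ x in (0 : ℝ)..u, f x, contDiff_infty_iff_deriv.2 ⟨fun t => (hd t).differentiableAt, ?_⟩,
    hd, fun t => ?_⟩
  · rwa [show deriv (fun u => ∫ x in (0 : ℝ)..u, f x) = f from funext fun t => (hd t).deriv]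
  · have := hper.intervalIntegral_add_eq t 0
    rw [zero_add] at this
    rw [← this, intervalIntegral.integral_add_adjacent_intervals (hf.continuous.intervalIntegrable _ _)
      (hf.continuous.intervalIntegrable _ _)]

/-- One coordinate. -/
lemma hasFDerivAt_coord {r φ : ℝ → ℝ} {r' φ' m : ℝ} {p : ℝ × ℝ} (hr : HasDerivAt r r' p.1)
    (hφ : HasDerivAt φ φ' p.1) {T : ℝ → ℝ} {T' : ℝ} (hT : HasDerivAt T T' (m * p.2 + φ p.1)) :
    ∃ D : ℝ × ℝ →L[ℝ] ℝ, HasFDerivAt (fun x : ℝ × ℝ => r x.1 * T (m * x.2 + φ x.1)) D p ∧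
      ∀ v, D v = r' * T (m * p.2 + φ p.1) * v.1 + r p.1 * T' * (m * v.2 + φ' * v.1) := by
  have h1 := hr.comp_hasFDerivAt p (hasFDerivAt_fst (𝕜 := ℝ) (E := ℝ) (F := ℝ) (p := p))
  have h2 := hT.comp_hasFDerivAt p (((hasFDerivAt_snd (𝕜 := ℝ) (E := ℝ) (F := ℝ) (p := p)).const_mul m).add
    (hφ.comp_hasFDerivAt p (hasFDerivAt_fst (𝕜 := ℝ) (E := ℝ) (F := ℝ) (p := p))))
  refine ⟨_, h1.mul h2, fun v => ?_⟩
  simp; ring

theorem invariantTorusImmerses : InvariantTorusImmerses := by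
  intro A B C hA hB hC pA pB pC hC0 hdet
  have h : IsMetric A B C := ⟨hA, hB, hC, pA, pB, pC, hC0, hdet⟩
  obtain ⟨N, q, p, ρ, s, hN, hρ, hadm, hq, hp⟩ := exists_parameters h
  have hN' : (0 : ℝ) < N := Nat.cast_pos.2 hN
  set ε := (1 : ℝ) / N
  let x : ℝ → ℝ × ℝ × ℝ × ℝ := fun t => (ρ, ε, s, t)
  have hx : ContDiff ℝ ∞ x := by fun_prop
  let fα : ℝ → ℝ := fun t => (N : ℝ) * (B t / C t - ρ * fJ A B C (x t))
  let fβ : ℝ → ℝ := fun t => B t / C t + fI A B C (x t) / ρ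
  have hI : ContDiff ℝ ∞ fun t => fI A B C (x t) :=
    contDiff_iff_contDiffAt.2 fun t => (contDiffAt_fI h (hadm t)).comp (f := x) t hx.contDiffAt
  have hJ : ContDiff ℝ ∞ fun t => fJ A B C (x t) :=
    contDiff_iff_contDiffAt.2 fun t => (contDiffAt_fJ h (hadm t)).comp (f := x) t hx.contDiffAt
  have hBC : ContDiff ℝ ∞ fun t => B t / C t := hB.div hC fun t => (hC0 t).ne'
  obtain ⟨α, hα, hα', hαp⟩ := exists_angle (f := fα) (contDiff_const.mul (hBC.sub (contDiff_const.mul hJ)))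
    (fun t => by simp only [fα, x, pB t, pC t, (all_periodic h ρ ε s t).2.2.2])
  obtain ⟨β, hβ, hβ', hβp⟩ := exists_angle (f := fβ) (hBC.add (hI.div_const ρ))
    (fun t => by simp only [fβ, x, pB t, pC t, (all_periodic h ρ ε s t).2.2.1])
  have iBC : IntervalIntegrable (fun t => B t / C t) volume 0 1 := hBC.continuous.intervalIntegrable _ _
  have hαp' : ∀ t, α (t + 1) = α t + p * (2 * π) := fun t => by
    rw [hαp, intervalIntegral.integral_const_mul, intervalIntegral.integral_sub iBC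
      ((continuous_const.fun_mul hJ.continuous).intervalIntegrable _ _), intervalIntegral.integral_const_mul]
    simp only [perInt] at hp
    simp only [x]; rw [hp]; ring
  have hβp' : ∀ t, β (t + 1) = β t + (q : ℤ) * (2 * π) := fun t => by
    rw [hβp, intervalIntegral.integral_add iBC ((hI.continuous.div_const ρ).intervalIntegrable _ _),
      intervalIntegral.integral_div]
    simp only [perInt] at hq
    simp only [x]; rw [hq]; push_cast; ring
  let r₁ : ℝ → ℝ := fun t => Real.sqrt (C t) * Real.sqrt (rad (x t)) / N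
  let r₂ : ℝ → ℝ := fun t => Real.sqrt (C t) * (ρ * prof (x t))
  have hr₁s : ContDiff ℝ ∞ r₁ := ((hC.sqrt fun t => (hC0 t).ne').mul
    ((contDiff_rad.comp hx).sqrt fun t => (hadm t).1.ne')).div_const _
  have hr₂s : ContDiff ℝ ∞ r₂ := (hC.sqrt fun t => (hC0 t).ne').mul (contDiff_const.mul (contDiff_prof.comp hx))
  have hprof : ∀ t, HasDerivAt (fun u => prof (x u)) (prof' (x t)) t := fun t => by
    have := ((((hasDerivAt_id t).const_mul (2 * π)).cos).const_mul (s / 2)).const_add 1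
    refine (this.congr_deriv ?_).congr_of_eventuallyEq (Filter.Eventually.of_forall fun u => rfl)
    simp [prof', x]; ring
  have hc : ∀ t, HasDerivAt (fun u => Real.sqrt (C u)) (deriv C t / (2 * Real.sqrt (C t))) t := fun t =>
    ((hC.differentiable (by simp) t).hasDerivAt).sqrt (hC0 t).ne'
  have hr₁ : ∀ t, HasDerivAt r₁ (radU' C (x t) / N) t := fun t => by
    have hrad : HasDerivAt (fun u => rad (x u)) (-(2 * ρ ^ 2 * prof (x t) * prof' (x t))) t := by
      have := (((hprof t).pow 2).const_mul (ρ ^ 2)).const_sub 1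
      refine (this.congr_deriv ?_).congr_of_eventuallyEq (Filter.Eventually.of_forall fun u => rfl)
      simp; ring
    have := ((hc t).mul (hrad.sqrt (hadm t).1.ne')).div_const (N : ℝ)
    refine (this.congr_deriv ?_).congr_of_eventuallyEq (Filter.Eventually.of_forall fun u => rfl)
    simp only [radU', x]; ring
  have hr₂ : ∀ t, HasDerivAt r₂ (radR' C (x t)) t := fun t => by
    have := (hc t).mul ((hprof t).const_mul ρ)
    refine (this.congr_deriv ?_).congr_of_eventuallyEq (Filter.Eventually.of_forall fun u => rfl)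
    simp only [radR', x]; ring
  have hper : ∀ t, r₁ (t + 1) = r₁ t ∧ r₂ (t + 1) = r₂ t := fun t => by
    simp only [r₁, r₂, x, pC t, (all_periodic h ρ ε s t).1, (prof_periodic ρ ε s t).1, and_self]
  let Φ : Fin 4 → ℝ × ℝ → ℝ := ![
    fun z => r₁ z.1 * Real.cos ((N : ℝ) * z.2 + α z.1), fun z => r₁ z.1 * Real.sin ((N : ℝ) * z.2 + α z.1),
    fun z => r₂ z.1 * Real.cos (1 * z.2 + β z.1), fun z => r₂ z.1 * Real.sin (1 * z.2 + β z.1)]
  refine ⟨fun z => WithLp.toLp 2 fun i => Φ i z, ?_, fun t θ => ?_, fun z v w => ?_⟩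
  · refine contDiff_euclidean.2 fun i => ?_
    fin_cases i <;> simp [Φ] <;>
      first
        | exact (hr₁s.comp contDiff_fst).mul
            (Real.contDiff_cos.comp ((contDiff_const.mul contDiff_snd).add (hα.comp contDiff_fst)))
        | exact (hr₁s.comp contDiff_fst).mul
            (Real.contDiff_sin.comp ((contDiff_const.mul contDiff_snd).add (hα.comp contDiff_fst)))
        | exact (hr₂s.comp contDiff_fst).mul
            (Real.contDiff_cos.comp (contDiff_snd.add (hβ.comp contDiff_fst)))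
        | exact (hr₂s.comp contDiff_fst).mul
            (Real.contDiff_sin.comp (contDiff_snd.add (hβ.comp contDiff_fst)))
  · constructor <;> refine congr_arg (WithLp.toLp 2) (funext fun i => ?_)
    · fin_cases i <;> simp [Φ, hper, hαp', hβp', ← add_assoc, Real.cos_add_int_mul_two_pi,
        Real.sin_add_int_mul_two_pi] <;>
      exact Or.inl ((Real.cos_add_nat_mul_two_pi _ q).trans rfl)
    · fin_cases i <;> simp [Φ, mul_add, add_right_comm _ _ (α t), add_right_comm _ _ (β t),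
        Real.cos_add_nat_mul_two_pi, Real.sin_add_nat_mul_two_pi, Real.cos_add_two_pi, Real.sin_add_two_pi]
  · set t := z.1
    obtain ⟨D0, hD0, e0⟩ := hasFDerivAt_coord (hr₁ t) (hα' t) (Real.hasDerivAt_cos ((N : ℝ) * z.2 + α t))
    obtain ⟨D1, hD1, e1⟩ := hasFDerivAt_coord (hr₁ t) (hα' t) (Real.hasDerivAt_sin ((N : ℝ) * z.2 + α t))
    obtain ⟨D2, hD2, e2⟩ := hasFDerivAt_coord (hr₂ t) (hβ' t) (Real.hasDerivAt_cos ((1 : ℝ) * z.2 + β t))
    obtain ⟨D3, hD3, e3⟩ := hasFDerivAt_coord (hr₂ t) (hβ' t) (Real.hasDerivAt_sin ((1 : ℝ) * z.2 + β t))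
    have hF : HasFDerivAt (fun z => WithLp.toLp 2 fun i => Φ i z : ℝ × ℝ → EuclideanSpace ℝ (Fin 4))
        ((PiLp.continuousLinearEquiv 2 ℝ fun _ : Fin 4 => ℝ).symm.toContinuousLinearMap.comp
          (ContinuousLinearMap.pi ![D0, D1, D2, D3])) z :=
      ((PiLp.continuousLinearEquiv 2 ℝ fun _ : Fin 4 => ℝ).symm.toContinuousLinearMap.hasFDerivAt).comp z
        (hasFDerivAt_pi.2 fun i => by fin_cases i <;> assumption)
    rw [hF.fderiv]
    simp only [PiLp.inner_apply, Fin.sum_univ_four, ContinuousLinearMap.comp_apply]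
    simp [e0, e1, e2, e3]
    have c1 := Real.sin_sq_add_cos_sq ((N : ℝ) * z.2 + α t)
    have c2 := Real.sin_sq_add_cos_sq (z.2 + β t)
    set m := Real.sqrt (rad (x t))
    set c := Real.sqrt (C t)
    set k := prof (x t)
    set En := Real.sqrt (energy A B C (x t))
    have hm : 0 < m := Real.sqrt_pos.2 (hadm t).1
    have hk : 0 < k := (hadm t).2.1
    have hm2 : m ^ 2 = 1 - ρ ^ 2 * k ^ 2 := Real.sq_sqrt (hadm t).1.le
    have hc2 : c ^ 2 = C t := Real.sq_sqrt (hC0 t).le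
    have hcpos : 0 < c := Real.sqrt_pos.2 (hC0 t)
    have hE2 : En ^ 2 = A t * C t - B t ^ 2 - C t * (ε ^ 2 * radU' C (x t) ^ 2 + radR' C (x t) ^ 2) :=
      Real.sq_sqrt (hadm t).2.2.le
    have a1 : r₁ t * N = c * m := by simp only [r₁]; field_simp; rfl
    have a2 : r₂ t = c * (ρ * k) := rfl
    have b1 : r₁ t * fα t = (c * m * B t - c * (ρ * k) * En) / C t := by
      simp only [r₁, fα, fJ, x]
      change c * m / N * (N * (B t / C t - ρ * (k * En / (m * C t)))) = _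
      have := (hC0 t).ne'
      field_simp
    have b2 : r₂ t * fβ t = (c * (ρ * k) * B t + c * m * En) / C t := by
      simp only [fβ, fI, a2, x]
      change c * (ρ * k) * (B t / C t + m * En / (k * C t) / ρ) = _
      have := (hC0 t).ne'
      field_simp
    set R1 := radU' C (x t) / (N : ℝ)
    set R2 := radR' C (x t)
    have hR : R1 ^ 2 = ε ^ 2 * radU' C (x t) ^ 2 := by simp only [R1, ε]; ring
    have g11 : R1 ^ 2 + R2 ^ 2 + (r₁ t * fα t) ^ 2 + (r₂ t * fβ t) ^ 2 = A t := by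
      rw [b1, b2]
      have := (hC0 t).ne'
      field_simp
      linear_combination (C t) * (C t) * hR + c ^ 2 * (B t ^ 2 + En ^ 2) * hm2 + (B t ^ 2 + En ^ 2) * hc2
        + C t * hE2
    have g12 : r₁ t * N * (r₁ t * fα t) + r₂ t * (r₂ t * fβ t) = B t := by
      rw [b1, b2, a1, a2]
      have := (hC0 t).ne'
      field_simp
      linear_combination c ^ 2 * B t * hm2 + B t * hc2
    have g22 : (r₁ t * N) ^ 2 + r₂ t ^ 2 = C t := by
      rw [a1, a2]; linear_combination c ^ 2 * hm2 + hc2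
    linear_combination (v.1 * w.1) * g11 + (v.1 * w.2 + v.2 * w.1) * g12 + (v.2 * w.2) * g22
      + (R1 ^ 2 * (v.1 * w.1) + r₁ t ^ 2 * ((N * v.2 + fα t * v.1) * (N * w.2 + fα t * w.1))) * c1
      + (R2 ^ 2 * (v.1 * w.1) + r₂ t ^ 2 * ((v.2 + fβ t * v.1) * (w.2 + fβ t * w.1))) * c2

end

end Vale.Agent.P205
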