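import Vale.Agent.P205.IsoSeries

/-!
A closed, nowhere vanishing periodic multiple of `dz + μ dz̄`, and its primitive.
-/

namespace Vale.Agent.P205.Iso

open scoped ContDiff Real
open MeasureTheory Set Filter Complex Fou

noncomputable section

variable {μ : ℝ × ℝ → ℂ} {c : ℝ}

/-- The coefficients of the solution at parameter `t`. -/
def solC (μ : ℝ × ℝ → ℂ) (t : ℝ) (k : ℤ × ℤ) : ℂ := ∑' n, (t : ℂ) ^ (n + 1) * cf (trm μ n) k

theorem bound_plain (hμ : SP μ) (hc : ∀ p, ‖μ p‖ ^ 2 ≤ c) (hc1 : c < 1) (N : ℕ) :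
    ∃ C ρ : ℝ, 0 ≤ C ∧ 0 ≤ ρ ∧ ρ < 1 ∧
      ∀ n k, wt k ^ N * ‖cf (trm μ n) k‖ ≤ C * ρ ^ n := by
  obtain ⟨C, ρ, h0, h1, hb⟩ := trm_bound hμ hc hc1 N
  refine ⟨max C 0, ρ, le_max_right _ _, h0, h1, fun n k => (hb n k).trans ?_⟩
  exact mul_le_mul_of_nonneg_right (le_max_left _ _) (pow_nonneg h0 n)

theorem norm_solC_le (hμ : SP μ) (hc : ∀ p, ‖μ p‖ ^ 2 ≤ c) (hc1 : c < 1) (N : ℕ) :
    ∃ K : ℝ, 0 ≤ K ∧ ∀ t : ℝ, |t| ≤ 1 → ∀ k, wt k ^ N * ‖solC μ t k‖ ≤ K * |t| := by
  obtain ⟨C, ρ, hC, h0, h1, hb⟩ := bound_plain hμ hc hc1 N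
  refine ⟨C * (1 - ρ)⁻¹, mul_nonneg hC (inv_nonneg.2 (by linarith)), fun t ht k => ?_⟩
  have hw : 0 < wt k ^ N := pow_pos (lt_of_lt_of_le one_pos (one_le_wt k)) N
  rw [mul_comm, ← le_div_iff₀ hw]
  have hs : HasSum (fun n => |t| * (C * ρ ^ n) / wt k ^ N) (|t| * (C * (1 - ρ)⁻¹) / wt k ^ N) :=
    (((hasSum_geometric_of_lt_one h0 h1).mul_left C).mul_left |t|).div_const _
  refine (tsum_of_norm_bounded hs fun n => ?_).trans_eq (by ring)
  rw [norm_mul, norm_pow, norm_real, Real.norm_eq_abs, le_div_iff₀ hw, mul_assoc]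
  have hp : |t| ^ (n + 1) ≤ |t| := by
    rw [pow_succ']
    exact mul_le_of_le_one_right (abs_nonneg t) (pow_le_one₀ (abs_nonneg t) ht)
  exact mul_le_mul hp (by rw [mul_comm]; exact hb n k) (mul_nonneg (norm_nonneg _) hw.le) (abs_nonneg _)

theorem rd_solC (hμ : SP μ) (hc : ∀ p, ‖μ p‖ ^ 2 ≤ c) (hc1 : c < 1) {t : ℝ} (ht : |t| ≤ 1) :
    RD (solC μ t) :=
  rd_of_bound fun N => by
    obtain ⟨K, -, hK⟩ := norm_solC_le hμ hc hc1 N
    exact ⟨K * |t|, hK t ht⟩

theorem ser_solC (hμ : SP μ) (hc : ∀ p, ‖μ p‖ ^ 2 ≤ c) (hc1 : c < 1) {t : ℝ} (ht : |t| ≤ 1)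
    {m : ℤ × ℤ → ℂ} (hm : ∀ k, ‖m k‖ ≤ 1) (p : ℝ × ℝ) :
    ser (fun k => m k * solC μ t k) p =
        ∑' n, (t : ℂ) ^ (n + 1) * ser (fun k => m k * cf (trm μ n) k) p ∧
      Summable fun n => (t : ℂ) ^ (n + 1) * ser (fun k => m k * cf (trm μ n) k) p := by
  obtain ⟨C, ρ, hC, h0, h1, hb⟩ := bound_plain hμ hc hc1 2
  let F : ℕ → ℤ × ℤ → ℂ := fun n k => (t : ℂ) ^ (n + 1) * (m k * cf (trm μ n) k * ch k p)
  have hF : Summable (Function.uncurry F) := by
    refine Summable.of_norm_bounded ((summable_geometric_of_lt_one h0 h1).mul_left C |>.mul_of_nonneg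
      summable_wt (fun n => by positivity) (fun k => inv_nonneg.2 (sq_nonneg _))) fun x => ?_
    have hw : 0 < wt x.2 ^ 2 := pow_pos (lt_of_lt_of_le one_pos (one_le_wt _)) 2
    rw [le_mul_inv_iff₀ hw]
    refine le_trans ?_ (hb x.1 x.2)
    rw [mul_comm (wt x.2 ^ 2)]
    refine mul_le_mul_of_nonneg_right ?_ hw.le
    simp only [Function.uncurry, F, norm_mul, norm_pow, norm_ch, mul_one, norm_real,
      Real.norm_eq_abs]
    calc |t| ^ (x.1 + 1) * (‖m x.2‖ * ‖cf (trm μ x.1) x.2‖)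
        ≤ 1 * (1 * ‖cf (trm μ x.1) x.2‖) := by
          gcongr
          · exact pow_le_one₀ (abs_nonneg t) ht
          · exact hm _
      _ = _ := by ring
  have e : ∀ n, (t : ℂ) ^ (n + 1) * ser (fun k => m k * cf (trm μ n) k) p = ∑' k, F n k :=
    fun n => by rw [ser, ← tsum_mul_left]
  simp only [e]
  refine ⟨?_, hF.prod⟩
  rw [← hF.tsum_comm, ser]
  refine tsum_congr fun k => ?_
  rw [solC, ← tsum_mul_left, ← tsum_mul_right]
  exact tsum_congr fun n => by simp only [F]; ring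

theorem ser_single (a : ℂ) (p : ℝ × ℝ) :
    ser (fun k => if k = 0 then a else 0) p = a := by
  rw [ser, tsum_eq_single (0 : ℤ × ℤ)]
  · simp [ch_zero]
  · intro k hk; simp [hk]

theorem rd_single (a : ℂ) : RD fun k : ℤ × ℤ => if k = 0 then a else 0 := fun n =>
  summable_of_ne_finset_zero (s := {0}) fun k hk => by simp_all

theorem ser_sub_mean {a : ℤ × ℤ → ℂ} (ha : RD a) (p : ℝ × ℝ) :
    ser (fun k => if k = 0 then 0 else a k) p = ser a p - a 0 := by
  have h1 := ha.summable_ser p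
  have h2 := (rd_single (a 0)).summable_ser p
  rw [← ser_single (a 0) p, ser, ser, ser, ← h1.tsum_sub h2]
  refine tsum_congr fun k => ?_
  split_ifs with h
  · subst h; simp
  · simp

theorem dB_ser {a : ℤ × ℤ → ℂ} (ha : RD a) : dB (ser a) = ser fun k => bz k * a k := by
  funext p
  simp only [dB, dv_ser ha, ser, mX_eq, mY_eq]
  have h1 := (ha.phase (1, 0)).summable_ser p
  have h2 := ((ha.phase (0, 1)).summable_ser p).mul_left I
  simp only [mX_eq, mY_eq] at h1 h2
  rw [← tsum_mul_left, ← h1.tsum_add h2, ← tsum_div_const]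
  exact tsum_congr fun k => by rw [bz]; ring

theorem dZ_ser {a : ℤ × ℤ → ℂ} (ha : RD a) : dZ (ser a) = ser fun k => az k * a k := by
  funext p
  simp only [dZ, dv_ser ha, ser, mX_eq, mY_eq]
  have h1 := (ha.phase (1, 0)).summable_ser p
  have h2 := ((ha.phase (0, 1)).summable_ser p).mul_left I
  simp only [mX_eq, mY_eq] at h1 h2
  rw [← tsum_mul_left, ← h1.tsum_sub h2, ← tsum_div_const]
  exact tsum_congr fun k => by rw [az]; ring

theorem rd_bz_mul {a : ℤ × ℤ → ℂ} (ha : RD a) : RD fun k => bz k * a k := by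
  refine ha.of_le (C := 2 * π) (m := 1) fun k => ?_
  have hn : ∀ v : ℝ × ℝ, ‖v‖ ≤ 1 → ‖ph k v‖ ≤ 2 * π * wt k := fun v hv =>
    ((ph k).le_of_opNorm_le (norm_ph_le k) v).trans
      (mul_le_of_le_one_right (by have := wt_nonneg k; positivity) hv)
  have hx := hn (1, 0) (by simp [Prod.norm_def])
  have hy := hn (0, 1) (by simp [Prod.norm_def])
  rw [mX_eq] at hx
  rw [mY_eq] at hy
  rw [norm_mul, pow_one]
  refine mul_le_mul_of_nonneg_right ?_ (norm_nonneg _)
  rw [bz, norm_div, Complex.norm_two, div_le_iff₀ two_pos]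
  have := norm_add_le (mX k) (I * mY k)
  simp only [norm_mul, norm_I, one_mul] at this
  linarith

theorem cf_dB {f : ℝ × ℝ → ℂ} (hf : SP f) (k : ℤ × ℤ) : cf (dB f) k = bz k * cf f k := by
  conv_lhs => rw [← ser_cf hf]
  rw [dB_ser (rd_cf hf), cf_ser (rd_bz_mul (rd_cf hf))]

theorem cf_dZ {f : ℝ × ℝ → ℂ} (hf : SP f) (k : ℤ × ℤ) : cf (dZ f) k = az k * cf f k := by
  have hr : RD fun k => az k * cf f k :=
    (rd_bz_mul (rd_cf hf)).of_le (C := 1) (m := 0) fun k => by
      simp [az_bz]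
  conv_lhs => rw [← ser_cf hf]
  rw [dZ_ser (rd_cf hf), cf_ser hr]

theorem dv_exp {f : ℝ × ℝ → ℂ} (hf : SP f) (v p : ℝ × ℝ) :
    dv v (fun q => exp (f q)) p = exp (f p) * dv v f p := by
  have h := (hf.1.differentiable (by simp) p).hasFDerivAt.cexp
  simp only [dv]
  rw [h.fderiv]
  simp

theorem sp_exp {f : ℝ × ℝ → ℂ} (hf : SP f) : SP fun q => exp (f q) :=
  ⟨hf.1.cexp, fun p => by simp [(hf.2 p).1, (hf.2 p).2]⟩

theorem sp_sigma (hμ : SP μ) (hc : ∀ p, ‖μ p‖ ^ 2 ≤ c) (hc1 : c < 1) {t : ℝ} (ht : |t| ≤ 1) :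
    SP (ser fun k => solC μ t k / bz k) :=
  sp_ser (rd_div_bz (rd_solC hμ hc hc1 ht))

/-- The defect identity: the closedness defect is the mean times the exponential. -/
theorem defect (hμ : SP μ) (hc : ∀ p, ‖μ p‖ ^ 2 ≤ c) (hc1 : c < 1) {t : ℝ} (ht : |t| ≤ 1)
    (p : ℝ × ℝ) :
    dB (fun q => exp (ser (fun k => solC μ t k / bz k) q)) p -
        t * dZ (fun q => μ q * exp (ser (fun k => solC μ t k / bz k) q)) p =
      -(solC μ t 0) * exp (ser (fun k => solC μ t k / bz k) p) := by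
  set σ := ser fun k => solC μ t k / bz k with hσ
  have hr := rd_solC hμ hc hc1 ht
  have hσsp : SP σ := sp_sigma hμ hc hc1 ht
  have e1 : dB σ p = ser (solC μ t) p - solC μ t 0 := by
    rw [hσ, dB_ser (rd_div_bz hr), ← ser_sub_mean hr]
    congr 1
    funext k
    split_ifs with h
    · subst h; simp [bz_zero]
    · have : bz k ≠ 0 := fun h0 => by
        have := one_le_norm_bz h; rw [h0, norm_zero] at this; linarith
      field_simp
  have e2 : dZ σ p = ser (fun k => bm k * solC μ t k) p := by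
    rw [hσ, dZ_ser (rd_div_bz hr)]
    congr 1
    funext k
    rw [bm]; ring
  have e3 : ser (solC μ t) p = t * dZ μ p + t * μ p * dZ σ p := by
    obtain ⟨hB, -⟩ := ser_solC hμ hc hc1 ht (m := fun _ => 1) (fun _ => by simp) p
    obtain ⟨hM, -⟩ := ser_solC hμ hc hc1 ht norm_bm_le p
    obtain ⟨-, hs⟩ := ser_solC hμ hc hc1 ht (m := fun _ => 1) (fun _ => by simp) p
    simp only [one_mul] at hB hs
    simp only [ser_cf (sp_trm hμ _)] at hB hs
    rw [hB, hs.tsum_eq_zero_add, e2, hM, ← tsum_mul_left]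
    congr 1
    · simp [trm]
    · exact tsum_congr fun n => by simp only [trm, beu]; ring
  have hx : ∀ v, dv v (fun q => μ q * exp (σ q)) p =
      μ p * (exp (σ p) * dv v σ p) + exp (σ p) * dv v μ p := fun v => by
    rw [dv_mul hμ (sp_exp hσsp), dv_exp hσsp]
  simp only [dB, dZ] at e1 e2 e3 ⊢
  simp only [hx, dv_exp hσsp]
  linear_combination exp (σ p) * e1 + exp (σ p) * e3

theorem integral_dB {f : ℝ × ℝ → ℂ} (hf : SP f) : ∫ p in box, dB f p = 0 := by
  simp only [dB, integral_div]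
  rw [integral_add (integrableOn_box (hf.dv _).continuous)
    ((integrableOn_box (hf.dv _).continuous).const_mul I), integral_const_mul, integral_dv_fst hf,
    integral_dv_snd hf]
  simp

theorem integral_dZ {f : ℝ × ℝ → ℂ} (hf : SP f) : ∫ p in box, dZ f p = 0 := by
  simp only [dZ, integral_div]
  rw [integral_sub (integrableOn_box (hf.dv _).continuous)
    ((integrableOn_box (hf.dv _).continuous).const_mul I), integral_const_mul, integral_dv_fst hf,
    integral_dv_snd hf]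
  simp

theorem mean_mul_integral (hμ : SP μ) (hc : ∀ p, ‖μ p‖ ^ 2 ≤ c) (hc1 : c < 1) {t : ℝ}
    (ht : |t| ≤ 1) :
    solC μ t 0 * ∫ p in box, exp (ser (fun k => solC μ t k / bz k) p) = 0 := by
  have hf := sp_exp (sp_sigma hμ hc hc1 ht)
  have h1 : Continuous (dB fun q => exp (ser (fun k => solC μ t k / bz k) q)) :=
    ((hf.dv _).continuous.add (continuous_const.mul (hf.dv _).continuous)).div_const _
  have h := integral_sub (integrableOn_box h1)
    ((integrableOn_box (sp_dZ (hμ.mul hf)).continuous).const_mul (t : ℂ))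
  simp only [defect hμ hc hc1 ht] at h
  rw [integral_const_mul, integral_const_mul, integral_dB hf, integral_dZ (hμ.mul hf)] at h
  linear_combination -h

theorem mean_eq_zero (hμ : SP μ) (hc : ∀ p, ‖μ p‖ ^ 2 ≤ c) (hc1 : c < 1) :
    solC μ 1 0 = 0 := by
  obtain ⟨K, hK, hb⟩ := norm_solC_le hμ hc hc1 2
  obtain ⟨C, ρ, hC, h0, h1, hρ⟩ := bound_plain hμ hc hc1 0
  simp only [pow_zero, one_mul] at hρ
  set W := ∑' k : ℤ × ℤ, (wt k ^ 2)⁻¹ with hW
  have hW0 : 0 ≤ W := tsum_nonneg fun k => inv_nonneg.2 (sq_nonneg _)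
  set δ := min 1 ((4 * (K * W + 1))⁻¹) with hδ
  have hδ0 : 0 < δ := lt_min one_pos (inv_pos.2 (by positivity))
  have hzero : ∀ t ∈ Ioo 0 δ, solC μ t 0 = 0 := by
    intro t ht
    have ht1 : |t| ≤ 1 := by rw [abs_of_pos ht.1]; exact (ht.2.trans_le (min_le_left _ _)).le
    refine (mul_eq_zero.1 (mean_mul_integral hμ hc hc1 ht1)).resolve_right fun hI => ?_
    have hσ : ∀ p, ‖ser (fun k => solC μ t k / bz k) p‖ ≤ 1 / 4 := fun p => by
      refine (tsum_of_norm_bounded (summable_wt.hasSum.mul_left (K * |t|)) fun k => ?_).trans ?_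
      · rw [norm_mul, norm_ch, mul_one, norm_div]
        have hw : 0 < wt k ^ 2 := pow_pos (lt_of_lt_of_le one_pos (one_le_wt k)) 2
        rcases eq_or_ne k 0 with rfl | hk
        · simp [bz_zero]; positivity
        · rw [le_mul_inv_iff₀ hw, mul_comm]
          exact (mul_le_mul_of_nonneg_left (div_le_self (norm_nonneg _) (one_le_norm_bz hk))
            hw.le).trans (hb t ht1 k)
      · have hle : t ≤ (4 * (K * W + 1))⁻¹ := (ht.2.trans_le (min_le_right _ _)).le
        rw [le_inv_comm₀ ht.1 (by positivity)] at hle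
        rw [abs_of_pos ht.1]
        have : t * (4 * (K * W + 1)) ≤ 1 := by
          calc t * (4 * (K * W + 1)) ≤ t * t⁻¹ := mul_le_mul_of_nonneg_left hle ht.1.le
            _ = 1 := mul_inv_cancel₀ ht.1.ne'
        nlinarith [ht.1]
    have hf := (sp_exp (sp_sigma hμ hc hc1 ht1)).continuous
    have h1 : ‖∫ p in box, (exp (ser (fun k => solC μ t k / bz k) p) - 1)‖ ≤ 1 / 2 := by
      refine (norm_setIntegral_le_of_norm_le_const ?_ fun p _ => ?_).trans_eq (by rw [volume_box, mul_one])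
      · exact ((Metric.isBounded_Ioc 0 1).prod (Metric.isBounded_Ioc 0 1)).measure_lt_top
      · exact (norm_exp_sub_one_le (by linarith [hσ p])).trans (by linarith [hσ p])
    rw [integral_sub (integrableOn_box hf) (integrableOn_box continuous_const), hI] at h1
    simp [volume_box] at h1
    norm_num at h1
  have hall : ∀ n, cf (trm μ n) 0 = 0 := by
    intro n
    induction n using Nat.strong_induction_on with
    | _ n ih =>
      by_contra hne
      have hpos : 0 < ‖cf (trm μ n) 0‖ := norm_pos_iff.2 hne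
      set B := C * (1 - ρ)⁻¹ with hB
      have hB0 : 0 ≤ B := mul_nonneg hC (inv_nonneg.2 (by linarith))
      set t := min (δ / 2) (‖cf (trm μ n) 0‖ / (2 * (B + 1))) with htdef
      have ht0 : 0 < t := lt_min (by linarith) (by positivity)
      have ht : t ∈ Ioo 0 δ := ⟨ht0, (min_le_left _ _).trans_lt (by linarith)⟩
      have ht1 : t ≤ 1 := (ht.2.trans_le (min_le_left _ _)).le
      have hsum : Summable fun j => (t : ℂ) ^ (j + 1) * cf (trm μ j) 0 := by
        refine Summable.of_norm_bounded ((summable_geometric_of_lt_one h0 h1).mul_left C) fun j => ?_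
        rw [norm_mul, norm_pow, norm_real, Real.norm_eq_abs, abs_of_pos ht0]
        exact (mul_le_of_le_one_left (norm_nonneg _) (pow_le_one₀ ht0.le ht1)).trans (hρ j 0)
      have hz := hzero t ht
      rw [solC, ← hsum.sum_add_tsum_nat_add (n + 1), Finset.sum_range_succ,
        Finset.sum_eq_zero fun j hj => by rw [ih j (Finset.mem_range.1 hj), mul_zero], zero_add] at hz
      have hge : ‖(t : ℂ) ^ (n + 1) * cf (trm μ n) 0‖ ≤ t ^ (n + 2) * B := by
        rw [eq_neg_of_add_eq_zero_left hz, norm_neg]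
        refine tsum_of_norm_bounded
          (((hasSum_geometric_of_lt_one h0 h1).mul_left C).mul_left (t ^ (n + 2))) fun j => ?_
        rw [norm_mul, norm_pow, norm_real, Real.norm_eq_abs, abs_of_pos ht0]
        refine mul_le_mul ?_ ?_ (norm_nonneg _) (by positivity)
        · exact pow_le_pow_of_le_one ht0.le ht1 (by omega)
        · refine (hρ _ 0).trans (mul_le_mul_of_nonneg_left ?_ hC)
          exact pow_le_pow_of_le_one h0 h1.le (by omega)
      rw [norm_mul, norm_pow, norm_real, Real.norm_eq_abs, abs_of_pos ht0, pow_succ t (n + 1),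
        mul_assoc] at hge
      have h2 := le_of_mul_le_mul_left hge (by positivity)
      have h3 : t * (2 * (B + 1)) ≤ ‖cf (trm μ n) 0‖ :=
        (le_div_iff₀ (by positivity)).1 (min_le_right _ _)
      nlinarith
  simp [solC, hall]

/-- The chart before inversion. -/
theorem exists_chart (hμ : SP μ) (hc : ∀ p, ‖μ p‖ ^ 2 ≤ c) (hc1 : c < 1) :
    ∃ (A B : ℂ) (u f : ℝ × ℝ → ℂ), SP u ∧ SP f ∧ (∀ p, f p ≠ 0) ∧
      ∀ p v : ℝ × ℝ, (v.1 : ℂ) * A + v.2 * B + dv v u p =
        f p * (v.1 * (1 + μ p) + v.2 * I * (1 - μ p)) := by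
  have h1 : |(1 : ℝ)| ≤ 1 := by simp
  obtain ⟨f, hfdef⟩ :
      ∃ f : ℝ × ℝ → ℂ, f = fun q => exp (ser (fun k => solC μ 1 k / bz k) q) := ⟨_, rfl⟩
  have hf : SP f := hfdef ▸ sp_exp (sp_sigma hμ hc hc1 h1)
  have hh : SP fun q => μ q * f q := hμ.mul hf
  have hcl : dB f = dZ fun q => μ q * f q := funext fun p => by
    have := defect hμ hc hc1 h1 p
    rw [mean_eq_zero hμ hc hc1, ← hfdef] at this
    simpa [sub_eq_zero, hfdef] using this
  obtain ⟨u, hudef⟩ : ∃ u, u = ser fun k => cf (fun q => μ q * f q) k / bz k := ⟨_, rfl⟩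
  have hu : SP u := hudef ▸ sp_ser (rd_div_bz (rd_cf hh))
  refine ⟨cf f 0 + cf (fun q => μ q * f q) 0, I * (cf f 0 - cf (fun q => μ q * f q) 0), u, f, hu, hf,
    fun p => hfdef ▸ exp_ne_zero _, fun p v => ?_⟩
  have e1 : dB u p = μ p * f p - cf (fun q => μ q * f q) 0 := by
    rw [hudef, dB_ser (rd_div_bz (rd_cf hh))]
    conv_rhs => rw [show μ p * f p = ser (cf fun q => μ q * f q) p from
      (congrFun (ser_cf hh) p).symm, ← ser_sub_mean (rd_cf hh)]
    congr 1
    funext k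
    split_ifs with h
    · subst h; simp [bz_zero]
    · have : bz k ≠ 0 := fun h0 => by
        have := one_le_norm_bz h; rw [h0, norm_zero] at this; linarith
      field_simp
  have e2 : dZ u p = f p - cf f 0 := by
    rw [hudef, dZ_ser (rd_div_bz (rd_cf hh))]
    conv_rhs => rw [show f p = ser (cf f) p from (congrFun (ser_cf hf) p).symm,
      ← ser_sub_mean (rd_cf hf)]
    congr 1
    funext k
    have hk := cf_dB hf k
    rw [hcl, cf_dZ hh k] at hk
    split_ifs with h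
    · subst h; simp [bz_zero]
    · have : bz k ≠ 0 := fun h0 => by
        have := one_le_norm_bz h; rw [h0, norm_zero] at this; linarith
      rw [mul_div_assoc', div_eq_iff this, hk, mul_comm]
  have e3 : dv v u p = v.1 * dv (1, 0) u p + v.2 * dv (0, 1) u p := by
    simp only [dv]
    rw [show v = v.1 • ((1 : ℝ), (0 : ℝ)) + v.2 • ((0 : ℝ), (1 : ℝ)) by ext <;> simp, map_add,
      map_smul, map_smul, Complex.real_smul, Complex.real_smul]
    simp
  simp only [dB, dZ] at e1 e2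
  rw [e3]
  have ex : dv (1, 0) u p = f p + μ p * f p - cf f 0 - cf (fun q => μ q * f q) 0 := by
    linear_combination e1 + e2
  have ey : dv (0, 1) u p = I * (f p - μ p * f p - cf f 0 + cf (fun q => μ q * f q) 0) := by
    linear_combination I * e2 - I * e1 + dv (0, 1) u p * Complex.I_sq
  rw [ex, ey]
  ring

end

end Vale.Agent.P205.Iso
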