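import Vale.Agent.P205.Fourier

/-!
The Neumann series of the Beltrami operator on smooth periodic functions, in all Sobolev norms.
-/

namespace Vale.Agent.P205.Iso

open scoped ContDiff Real
open MeasureTheory Set Filter Complex Fou

noncomputable section

/-- Multiplier of the holomorphic derivative. -/
def az (k : ℤ × ℤ) : ℂ := (mX k - I * mY k) / 2

/-- Multiplier of the antiholomorphic derivative. -/
def bz (k : ℤ × ℤ) : ℂ := (mX k + I * mY k) / 2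

/-- The holomorphic derivative. -/
def dZ (f : ℝ × ℝ → ℂ) (p : ℝ × ℝ) : ℂ := (dv (1, 0) f p - I * dv (0, 1) f p) / 2

/-- The antiholomorphic derivative. -/
def dB (f : ℝ × ℝ → ℂ) (p : ℝ × ℝ) : ℂ := (dv (1, 0) f p + I * dv (0, 1) f p) / 2

/-- The Beurling multiplier, zero at the zero frequency. -/
def bm (k : ℤ × ℤ) : ℂ := az k / bz k

/-- The Beurling transform. -/
def beu (f : ℝ × ℝ → ℂ) : ℝ × ℝ → ℂ := ser fun k => bm k * cf f k

/-- The squared mean square. -/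
def msq (f : ℝ × ℝ → ℂ) : ℝ := ∫ p in box, ‖f p‖ ^ 2

theorem bz_zero : bz 0 = 0 := by simp [bz, mX, mY]

theorem az_bz (k : ℤ × ℤ) : az k = -(starRingEnd ℂ) (bz k) := by
  simp only [az, bz, mX, mY, map_div₀, map_add, map_mul, Complex.conj_ofReal, Complex.conj_I,
    map_ofNat]
  ring

theorem norm_bm_le (k : ℤ × ℤ) : ‖bm k‖ ≤ 1 := by
  rw [bm, norm_div, az_bz, norm_neg, RCLike.norm_conj]
  exact div_self_le_one _

theorem one_le_norm_bz {k : ℤ × ℤ} (hk : k ≠ 0) : 1 ≤ ‖bz k‖ := by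
  have e1 : (bz k).re = -(π * k.2) := by simp [bz, mX, mY]; ring
  have e2 : (bz k).im = π * k.1 := by simp [bz, mX, mY]; ring
  have key : ∀ n : ℤ, n ≠ 0 → (1 : ℝ) ≤ |π * n| := fun n hn => by
    rw [abs_mul, abs_of_pos Real.pi_pos]
    have h1 : (1 : ℝ) ≤ |(n : ℝ)| := by exact_mod_cast Int.one_le_abs hn
    nlinarith [Real.two_le_pi]
  by_cases h1 : k.1 = 0
  · have h2 : k.2 ≠ 0 := fun h => hk (Prod.ext h1 h)
    exact (key _ h2).trans (by simpa [e1] using Complex.abs_re_le_norm (bz k))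
  · exact (key _ h1).trans (by simpa [e2] using Complex.abs_im_le_norm (bz k))

theorem rd_mult {a : ℤ × ℤ → ℂ} (ha : RD a) {m : ℤ × ℤ → ℂ} (hm : ∀ k, ‖m k‖ ≤ 1) :
    RD fun k => m k * a k :=
  ha.of_le (C := 1) (m := 0) fun k => by
    rw [norm_mul, pow_zero, one_mul, one_mul]; exact mul_le_of_le_one_left (norm_nonneg _) (hm k)

theorem rd_div_bz {a : ℤ × ℤ → ℂ} (ha : RD a) : RD fun k => a k / bz k :=
  ha.of_le (C := 1) (m := 0) fun k => by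
    rw [norm_div, pow_zero, one_mul, one_mul]
    rcases eq_or_ne k 0 with rfl | hk
    · simp [bz_zero]
    · exact div_le_self (norm_nonneg _) (one_le_norm_bz hk)

theorem sp_beu {f : ℝ × ℝ → ℂ} (hf : SP f) : SP (beu f) :=
  sp_ser (rd_mult (rd_cf hf) norm_bm_le)

theorem cf_beu {f : ℝ × ℝ → ℂ} (hf : SP f) (k : ℤ × ℤ) : cf (beu f) k = bm k * cf f k :=
  cf_ser (rd_mult (rd_cf hf) norm_bm_le) k

theorem cf_dv_vec {f : ℝ × ℝ → ℂ} (hf : SP f) {v : ℝ × ℝ} (hv : v = (1, 0) ∨ v = (0, 1))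
    (k : ℤ × ℤ) : cf (dv v f) k = ph k v * cf f k := by
  rcases hv with rfl | rfl
  · rw [(cf_dv hf k).1, mX_eq]
  · rw [(cf_dv hf k).2, mY_eq]

theorem dv_beu {f : ℝ × ℝ → ℂ} (hf : SP f) {v : ℝ × ℝ} (hv : v = (1, 0) ∨ v = (0, 1)) :
    dv v (beu f) = beu (dv v f) := by
  unfold beu
  rw [dv_ser (rd_mult (rd_cf hf) norm_bm_le) v]
  congr 1
  funext k
  rw [cf_dv_vec hf hv k]; ring

theorem msq_nonneg (f : ℝ × ℝ → ℂ) : 0 ≤ msq f := integral_nonneg fun _ => sq_nonneg _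

theorem msq_beu {f : ℝ × ℝ → ℂ} (hf : SP f) : msq (beu f) ≤ msq f := by
  refine hasSum_le (fun k => ?_) (parseval (sp_beu hf)) (parseval hf)
  rw [cf_beu hf, norm_mul, mul_pow]
  exact mul_le_of_le_one_left (sq_nonneg _) (pow_le_one₀ (norm_nonneg _) (norm_bm_le k))

theorem msq_mul {h f : ℝ × ℝ → ℂ} (hh : SP h) (hf : SP f) {c : ℝ} (hc : ∀ p, ‖h p‖ ^ 2 ≤ c) :
    msq (fun p => h p * f p) ≤ c * msq f := by
  rw [msq, msq, ← integral_const_mul]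
  refine setIntegral_mono_on (integrableOn_box ((hh.continuous.mul hf.continuous).norm.pow 2))
    (integrableOn_box (continuous_const.mul (hf.continuous.norm.pow 2)))
    (measurableSet_Ioc.prod measurableSet_Ioc) fun p _ => ?_
  rw [norm_mul, mul_pow]
  exact mul_le_mul_of_nonneg_right (hc p) (sq_nonneg _)

theorem sp_add {f g : ℝ × ℝ → ℂ} (hf : SP f) (hg : SP g) : SP fun p => f p + g p :=
  ⟨hf.1.add hg.1, fun p => by simp [(hf.2 p).1, (hf.2 p).2, (hg.2 p).1, (hg.2 p).2]⟩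

theorem msq_add {f g : ℝ × ℝ → ℂ} (hf : SP f) (hg : SP g) {η : ℝ} (hη : 0 < η) :
    msq (fun p => f p + g p) ≤ (1 + η) * msq f + (1 + η⁻¹) * msq g := by
  have h1 : IntegrableOn (fun p => (1 + η) * ‖f p‖ ^ 2) box :=
    integrableOn_box (continuous_const.mul (hf.continuous.norm.pow 2))
  have h2 : IntegrableOn (fun p => (1 + η⁻¹) * ‖g p‖ ^ 2) box :=
    integrableOn_box (continuous_const.mul (hg.continuous.norm.pow 2))
  rw [msq, msq, msq, ← integral_const_mul, ← integral_const_mul, ← integral_add h1 h2]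
  refine setIntegral_mono_on (integrableOn_box ((hf.continuous.add hg.continuous).norm.pow 2))
    (h1.add h2) (measurableSet_Ioc.prod measurableSet_Ioc) fun p _ => ?_
  calc ‖f p + g p‖ ^ 2 ≤ (‖f p‖ + ‖g p‖) ^ 2 := by gcongr; exact norm_add_le _ _
    _ ≤ (1 + η) * ‖f p‖ ^ 2 + (1 + η⁻¹) * ‖g p‖ ^ 2 := by
      have : (1 + η) * ‖f p‖ ^ 2 + (1 + η⁻¹) * ‖g p‖ ^ 2 - (‖f p‖ + ‖g p‖) ^ 2 =
          η⁻¹ * (η * ‖f p‖ - ‖g p‖) ^ 2 := by field_simp; ring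
      nlinarith [mul_nonneg (inv_nonneg.2 hη.le) (sq_nonneg (η * ‖f p‖ - ‖g p‖))]

/-- A quadratic functional adapted to the Beltrami operator. -/
structure Lev (μ : ℝ × ℝ → ℂ) (r : ℕ) where
  /-- The functional. -/
  Q : (ℝ × ℝ → ℂ) → ℝ
  /-- The contraction rate. -/
  κ : ℝ
  nonneg : ∀ f, 0 ≤ Q f
  κ_nonneg : 0 ≤ κ
  κ_lt : κ < 1
  add : ∀ f g, SP f → SP g → ∀ η : ℝ, 0 < η →
    Q (fun p => f p + g p) ≤ (1 + η) * Q f + (1 + η⁻¹) * Q g
  beu_le : ∀ f, SP f → Q (beu f) ≤ Q f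
  step : ∀ f, SP f → Q (fun p => μ p * beu f p) ≤ κ * Q f
  mult : ∀ h, SP h → ∃ C, 0 ≤ C ∧ ∀ f, SP f → Q (fun p => h p * f p) ≤ C * Q f
  ctrl : ∀ a b : ℕ, a + b ≤ r → ∃ C, 0 ≤ C ∧
    ∀ f, SP f → ∀ k, (‖mX k‖ ^ a * ‖mY k‖ ^ b * ‖cf f k‖) ^ 2 ≤ C * Q f

theorem lev_zero {μ : ℝ × ℝ → ℂ} (hμ : SP μ) {c : ℝ} (hc : ∀ p, ‖μ p‖ ^ 2 ≤ c) (hc1 : c < 1) :
    Nonempty (Lev μ 0) := by
  have hc0 : 0 ≤ c := (sq_nonneg _).trans (hc 0)
  refine ⟨⟨msq, c, msq_nonneg, hc0, hc1, fun f g hf hg η hη => msq_add hf hg hη,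
    fun f hf => msq_beu hf, fun f hf => ?_, fun h hh => ?_, fun a b hab => ⟨1, zero_le_one, ?_⟩⟩⟩
  · exact (msq_mul hμ (sp_beu hf) hc).trans (mul_le_mul_of_nonneg_left (msq_beu hf) hc0)
  · obtain ⟨C, hC⟩ := bounded_sq hh
    exact ⟨C, (sq_nonneg _).trans (hC 0), fun f hf => msq_mul hh hf hC⟩
  · intro f hf k
    obtain rfl : a = 0 := by omega
    obtain rfl : b = 0 := by omega
    simpa [msq] using le_hasSum (parseval hf) k fun j _ => sq_nonneg _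
where
  /-- Periodic continuous functions are bounded. -/
  bounded_sq {h : ℝ × ℝ → ℂ} (hh : SP h) : ∃ C, ∀ p, ‖h p‖ ^ 2 ≤ C := by
    obtain ⟨C, hC⟩ := ((isCompact_Icc (a := (0:ℝ)) (b := 1)).prod
      (isCompact_Icc (a := (0:ℝ)) (b := 1))).exists_bound_of_continuousOn hh.continuous.continuousOn
    refine ⟨C ^ 2, fun p => pow_le_pow_left₀ (norm_nonneg _) ?_ 2⟩
    rw [← per2_int hh.2 p (-⌊p.1⌋) (-⌊p.2⌋)]
    refine hC _ ⟨⟨?_, ?_⟩, ?_, ?_⟩ <;> push_cast <;>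
      linarith [Int.floor_le p.1, Int.floor_le p.2, Int.lt_floor_add_one p.1,
        Int.lt_floor_add_one p.2]

theorem dv_mul_fun {f g : ℝ × ℝ → ℂ} (hf : SP f) (hg : SP g) (v : ℝ × ℝ) :
    dv v (fun q => f q * g q) = fun p => f p * dv v g p + g p * dv v f p :=
  funext (dv_mul hf hg v)

theorem dv_add_fun {f g : ℝ × ℝ → ℂ} (hf : SP f) (hg : SP g) (v : ℝ × ℝ) :
    dv v (fun q => f q + g q) = fun p => dv v f p + dv v g p := by
  funext p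
  simp only [dv]
  rw [fderiv_fun_add (hf.1.differentiable (by simp) p) (hg.1.differentiable (by simp) p)]
  rfl

theorem lev_succ {μ : ℝ × ℝ → ℂ} (hμ : SP μ) {r : ℕ} (L : Lev μ r) : Nonempty (Lev μ (r + 1)) := by
  obtain ⟨C₁, hC₁, hx⟩ := L.mult _ (hμ.dv (1, 0))
  obtain ⟨C₂, hC₂, hy⟩ := L.mult _ (hμ.dv (0, 1))
  set κ' := (1 + L.κ) / 2 with hκ'
  have hk1 : L.κ < κ' ∧ κ' < 1 := ⟨by linarith [L.κ_lt], by linarith [L.κ_lt]⟩
  have hk0 : 0 ≤ κ' := by linarith [L.κ_nonneg]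
  obtain ⟨η, hη, hηk⟩ : ∃ η : ℝ, 0 < η ∧ (1 + η) * L.κ ≤ κ' := by
    refine ⟨(1 - L.κ) / 2, by linarith [L.κ_lt], ?_⟩
    have := mul_le_of_le_one_right (show 0 ≤ (1 - L.κ) / 2 by linarith [L.κ_lt]) L.κ_lt.le
    linarith [hκ']
  set T := (1 + η⁻¹) * (C₁ + C₂) with hT
  have hT0 : 0 ≤ T := by positivity
  obtain ⟨ε, hε, hεk⟩ : ∃ ε : ℝ, 0 < ε ∧ L.κ + ε * T ≤ κ' := by
    refine ⟨(κ' - L.κ) / (T + 1), div_pos (by linarith) (by linarith), ?_⟩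
    have h : (κ' - L.κ) / (T + 1) * T ≤ κ' - L.κ := by
      rw [div_mul_eq_mul_div, div_le_iff₀ (by linarith)]; nlinarith
    linarith
  refine ⟨⟨fun f => L.Q f + ε * (L.Q (dv (1, 0) f) + L.Q (dv (0, 1) f)), κ', fun f => ?_, hk0,
    hk1.2, fun f g hf hg s hs => ?_, fun f hf => ?_, fun f hf => ?_, fun h hh => ?_,
    fun a b hab => ?_⟩⟩
  · have := L.nonneg f; have := L.nonneg (dv (1, 0) f); have := L.nonneg (dv (0, 1) f); positivity
  · simp only [dv_add_fun hf hg]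
    have h1 := L.add _ _ hf hg s hs
    have h2 := L.add _ _ (hf.dv (1, 0)) (hg.dv (1, 0)) s hs
    have h3 := L.add _ _ (hf.dv (0, 1)) (hg.dv (0, 1)) s hs
    nlinarith [mul_le_mul_of_nonneg_left (add_le_add h2 h3) hε.le]
  · simp only [dv_beu hf (Or.inl rfl), dv_beu hf (Or.inr rfl)]
    gcongr
    · exact L.beu_le _ hf
    · exact L.beu_le _ (hf.dv _)
    · exact L.beu_le _ (hf.dv _)
  · have key : ∀ v : ℝ × ℝ, (v = (1, 0) ∨ v = (0, 1)) → ∀ C, 0 ≤ C →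
        (∀ g, SP g → L.Q (fun p => dv v μ p * g p) ≤ C * L.Q g) →
        L.Q (dv v fun p => μ p * beu f p) ≤ κ' * L.Q (dv v f) + (1 + η⁻¹) * C * L.Q f := by
      intro v hv C hC hb
      rw [dv_mul_fun hμ (sp_beu hf), dv_beu hf hv]
      have e : (fun p => μ p * beu (dv v f) p + beu f p * dv v μ p) =
          fun p => μ p * beu (dv v f) p + dv v μ p * beu f p := funext fun p => by ring
      rw [e]
      refine (L.add _ _ (hμ.mul (sp_beu (hf.dv v))) ((hμ.dv v).mul (sp_beu hf)) η hη).trans ?_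
      refine add_le_add ?_ ?_
      · calc (1 + η) * L.Q (fun p => μ p * beu (dv v f) p)
            ≤ (1 + η) * (L.κ * L.Q (dv v f)) :=
              mul_le_mul_of_nonneg_left (L.step _ (hf.dv v)) (by linarith)
          _ ≤ _ := by rw [← mul_assoc]; exact mul_le_mul_of_nonneg_right hηk (L.nonneg _)
      · rw [mul_assoc]
        refine mul_le_mul_of_nonneg_left ?_ (by positivity)
        exact (hb _ (sp_beu hf)).trans (mul_le_mul_of_nonneg_left (L.beu_le _ hf) hC)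
    have h0 := L.step f hf
    have h1 := key _ (Or.inl rfl) C₁ hC₁ hx
    have h2 := key _ (Or.inr rfl) C₂ hC₂ hy
    calc L.Q (fun p => μ p * beu f p) + ε * (L.Q (dv (1, 0) fun p => μ p * beu f p) +
          L.Q (dv (0, 1) fun p => μ p * beu f p))
        ≤ L.κ * L.Q f + ε * ((κ' * L.Q (dv (1, 0) f) + (1 + η⁻¹) * C₁ * L.Q f) +
          (κ' * L.Q (dv (0, 1) f) + (1 + η⁻¹) * C₂ * L.Q f)) := by gcongr
      _ = (L.κ + ε * T) * L.Q f + κ' * (ε * (L.Q (dv (1, 0) f) + L.Q (dv (0, 1) f))) := by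
        rw [hT]; ring
      _ ≤ κ' * L.Q f + κ' * (ε * (L.Q (dv (1, 0) f) + L.Q (dv (0, 1) f))) := by
        gcongr; exact L.nonneg f
      _ = _ := by ring
  · obtain ⟨C, hC, hb⟩ := L.mult h hh
    obtain ⟨D₁, hD₁, hb₁⟩ := L.mult _ (hh.dv (1, 0))
    obtain ⟨D₂, hD₂, hb₂⟩ := L.mult _ (hh.dv (0, 1))
    refine ⟨2 * C + 2 * ε * (D₁ + D₂), by positivity, fun f hf => ?_⟩
    have key : ∀ v D, (∀ g, SP g → L.Q (fun p => dv v h p * g p) ≤ D * L.Q g) →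
        L.Q (dv v fun p => h p * f p) ≤ 2 * C * L.Q (dv v f) + 2 * D * L.Q f := by
      intro v D hD
      rw [dv_mul_fun hh hf, show (fun p => h p * dv v f p + f p * dv v h p) =
        fun p => h p * dv v f p + dv v h p * f p from funext fun p => by ring]
      refine (L.add _ _ (hh.mul (hf.dv v)) ((hh.dv v).mul hf) 1 one_pos).trans ?_
      have := hb _ (hf.dv v)
      have := hD f hf
      norm_num
      linarith
    have h1 := key _ D₁ hb₁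
    have h2 := key _ D₂ hb₂
    have h0 := hb f hf
    have e1 : ε * (L.Q (dv (1, 0) fun p => h p * f p) + L.Q (dv (0, 1) fun p => h p * f p)) ≤
        ε * (2 * C * L.Q (dv (1, 0) f) + 2 * D₁ * L.Q f +
          (2 * C * L.Q (dv (0, 1) f) + 2 * D₂ * L.Q f)) := by gcongr
    have e2 : 0 ≤ C * L.Q f := mul_nonneg hC (L.nonneg f)
    have e3 : 0 ≤ (2 * ε * (D₁ + D₂)) * (ε * (L.Q (dv (1, 0) f) + L.Q (dv (0, 1) f))) := by
      have := L.nonneg (dv (1, 0) f); have := L.nonneg (dv (0, 1) f); positivity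
    linarith
  · by_cases hr : a + b ≤ r
    · obtain ⟨C, hC, hb⟩ := L.ctrl a b hr
      refine ⟨C, hC, fun f hf k => (hb f hf k).trans (mul_le_mul_of_nonneg_left ?_ hC)⟩
      have := L.nonneg (dv (1, 0) f); have := L.nonneg (dv (0, 1) f)
      nlinarith
    · rcases a with _ | a
      · obtain ⟨b, rfl⟩ : ∃ c, b = c + 1 := ⟨b - 1, by omega⟩
        obtain ⟨C, hC, hb⟩ := L.ctrl 0 b (by omega)
        refine ⟨C / ε, div_nonneg hC hε.le, fun f hf k => ?_⟩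
        have h := hb _ (hf.dv (0, 1)) k
        rw [(cf_dv hf k).2, norm_mul] at h
        calc (‖mX k‖ ^ 0 * ‖mY k‖ ^ (b + 1) * ‖cf f k‖) ^ 2
            = (‖mX k‖ ^ 0 * ‖mY k‖ ^ b * (‖mY k‖ * ‖cf f k‖)) ^ 2 := by ring
          _ ≤ C / ε * (ε * L.Q (dv (0, 1) f)) := by
            rw [← mul_assoc (C / ε), div_mul_cancel₀ C hε.ne']; exact h
          _ ≤ _ := by
            have := L.nonneg (dv (1, 0) f); have := L.nonneg f
            gcongr; nlinarith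
      · obtain ⟨C, hC, hb⟩ := L.ctrl a b (by omega)
        refine ⟨C / ε, div_nonneg hC hε.le, fun f hf k => ?_⟩
        have h := hb _ (hf.dv (1, 0)) k
        rw [(cf_dv hf k).1, norm_mul] at h
        calc (‖mX k‖ ^ (a + 1) * ‖mY k‖ ^ b * ‖cf f k‖) ^ 2
            = (‖mX k‖ ^ a * ‖mY k‖ ^ b * (‖mX k‖ * ‖cf f k‖)) ^ 2 := by ring
          _ ≤ C / ε * (ε * L.Q (dv (1, 0) f)) := by
            rw [← mul_assoc (C / ε), div_mul_cancel₀ C hε.ne']; exact h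
          _ ≤ _ := by
            have := L.nonneg (dv (0, 1) f); have := L.nonneg f
            gcongr; nlinarith

theorem exists_lev {μ : ℝ × ℝ → ℂ} (hμ : SP μ) {c : ℝ} (hc : ∀ p, ‖μ p‖ ^ 2 ≤ c) (hc1 : c < 1) :
    ∀ r, Nonempty (Lev μ r)
  | 0 => lev_zero hμ hc hc1
  | r + 1 => (exists_lev hμ hc hc1 r).elim fun L => lev_succ hμ L

/-- The terms of the Neumann series. -/
def trm (μ : ℝ × ℝ → ℂ) : ℕ → ℝ × ℝ → ℂ
  | 0 => dZ μ
  | n + 1 => fun p => μ p * beu (trm μ n) p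

theorem sp_dZ {f : ℝ × ℝ → ℂ} (hf : SP f) : SP (dZ f) := by
  refine ⟨(((hf.dv _).1.sub (contDiff_const.mul (hf.dv _).1)).div_const 2), fun p => ?_⟩
  simp [dZ, ((hf.dv (1, 0)).2 p).1, ((hf.dv (1, 0)).2 p).2, ((hf.dv (0, 1)).2 p).1,
    ((hf.dv (0, 1)).2 p).2]

theorem sp_trm {μ : ℝ × ℝ → ℂ} (hμ : SP μ) : ∀ n, SP (trm μ n)
  | 0 => sp_dZ hμ
  | n + 1 => hμ.mul (sp_beu (sp_trm hμ n))

/-- All weighted coefficient bounds of the series decay geometrically. -/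
theorem trm_bound {μ : ℝ × ℝ → ℂ} (hμ : SP μ) {c : ℝ} (hc : ∀ p, ‖μ p‖ ^ 2 ≤ c) (hc1 : c < 1)
    (N : ℕ) : ∃ C ρ : ℝ, 0 ≤ ρ ∧ ρ < 1 ∧ ∀ n k, wt k ^ N * ‖cf (trm μ n) k‖ ≤ C * ρ ^ n := by
  obtain ⟨L⟩ := exists_lev hμ hc hc1 (N + N)
  have hQ : ∀ n, L.Q (trm μ n) ≤ L.κ ^ n * L.Q (dZ μ) := by
    intro n
    induction n with
    | zero => simp [trm]
    | succ n ih =>
      calc L.Q (trm μ (n + 1)) ≤ L.κ * L.Q (trm μ n) := L.step _ (sp_trm hμ n)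
        _ ≤ L.κ * (L.κ ^ n * L.Q (dZ μ)) := mul_le_mul_of_nonneg_left ih L.κ_nonneg
        _ = _ := by ring
  have key : ∀ a b, a + b ≤ N + N → ∃ C, ∀ n k,
      ‖mX k‖ ^ a * ‖mY k‖ ^ b * ‖cf (trm μ n) k‖ ≤ C * Real.sqrt L.κ ^ n := by
    intro a b hab
    obtain ⟨C, hC, hb⟩ := L.ctrl a b hab
    refine ⟨Real.sqrt (C * L.Q (dZ μ)), fun n k => ?_⟩
    have h := (hb _ (sp_trm hμ n) k).trans (mul_le_mul_of_nonneg_left (hQ n) hC)
    refine nonneg_le_nonneg_of_sq_le_sq (by positivity) ?_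
    rw [← sq, ← sq, mul_pow _ (Real.sqrt L.κ ^ n), Real.sq_sqrt (mul_nonneg hC (L.nonneg _)),
      ← pow_mul, mul_comm n 2, pow_mul, Real.sq_sqrt L.κ_nonneg]
    linarith
  obtain ⟨C1, h1⟩ := key 0 0 (by omega)
  obtain ⟨C2, h2⟩ := key N 0 (by omega)
  obtain ⟨C3, h3⟩ := key 0 N (by omega)
  obtain ⟨C4, h4⟩ := key N N le_rfl
  refine ⟨2 ^ N * 2 ^ N * (C1 + C2 + C3 + C4), Real.sqrt L.κ, Real.sqrt_nonneg _, ?_, fun n k => ?_⟩
  · rw [Real.sqrt_lt' one_pos]; simpa using L.κ_lt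
  · have := h1 n k; have := h2 n k; have := h3 n k; have := h4 n k
    calc wt k ^ N * ‖cf (trm μ n) k‖
        ≤ (2 ^ N * (1 + ‖mX k‖ ^ N)) * (2 ^ N * (1 + ‖mY k‖ ^ N)) * ‖cf (trm μ n) k‖ := by
          gcongr; exact wt_pow_le k N
      _ = 2 ^ N * 2 ^ N * (‖mX k‖ ^ 0 * ‖mY k‖ ^ 0 * ‖cf (trm μ n) k‖ +
          ‖mX k‖ ^ N * ‖mY k‖ ^ 0 * ‖cf (trm μ n) k‖ + ‖mX k‖ ^ 0 * ‖mY k‖ ^ N * ‖cf (trm μ n) k‖
          + ‖mX k‖ ^ N * ‖mY k‖ ^ N * ‖cf (trm μ n) k‖) := by ring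
      _ ≤ 2 ^ N * 2 ^ N * (C1 * Real.sqrt L.κ ^ n + C2 * Real.sqrt L.κ ^ n +
          C3 * Real.sqrt L.κ ^ n + C4 * Real.sqrt L.κ ^ n) := by gcongr
      _ = _ := by ring

end

end Vale.Agent.P205.Iso
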