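import Mathlib

/-!
Double periodicity for functions on the plane, used by the isothermal block of the torus half
of P205.
-/

namespace Vale.Agent.P205

/-- Periodicity in both coordinates with period one. -/
def Per2 {β : Type*} (f : ℝ × ℝ → β) : Prop :=
  ∀ p : ℝ × ℝ, f (p.1 + 1, p.2) = f p ∧ f (p.1, p.2 + 1) = f p

end Vale.Agent.P205
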